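import Crest.Agent.R278.Model

/-! The alternating trilinear form `dρ · dφ · dρ` kills tangent vectors. -/

set_option autoImplicit false
namespace Crest.Agent.R278
open Finset MvPolynomial

variable {A : Type*} [CommRing A]

noncomputable def BB (y : Fin 8 → A) (u w v : Fin 8) : A :=
  ∑ j ∈ range 14, ∑ k ∈ range 14,
    aeval y (pderiv u (rhoZ j)) * aeval y (pderiv w (phiZ j k)) * aeval y (pderiv v (rhoZ k))

lemma map_aevalZ {A' : Type*} [CommRing A'] (π : A →+* A') (y : Fin 8 → A) (p : PZ) :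
    π (aeval y p) = aeval (π ∘ y) p := by
  induction p using MvPolynomial.induction_on with
  | C a => simp
  | add p q hp hq => simp [hp, hq]
  | mul_X p i hp => simp [hp]

lemma map_BB {A' : Type*} [CommRing A'] (π : A →+* A') (y : Fin 8 → A) (u w v : Fin 8) :
    π (BB y u w v) = BB (π ∘ y) u w v := by
  simp only [BB, map_sum, map_mul, map_aevalZ]

lemma der_aevalZ {R : Type*} [CommRing R] [Algebra R A] (D : Derivation R A A) (y : Fin 8 → A)
    (p : PZ) : D (aeval y p) = ∑ u, D (y u) * aeval y (pderiv u p) := by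
  induction p using MvPolynomial.induction_on with
  | C a => simp [Derivation.map_intCast]
  | add p q hp hq => simp [hp, hq, mul_add, sum_add_distrib]
  | mul_X p i hp =>
    simp only [map_mul, aeval_X, Derivation.leibniz, hp, smul_eq_mul, pderiv_X, map_add, mul_add,
      sum_add_distrib, mul_sum]
    congr 1
    · rw [sum_eq_single i] <;> simp +contextual [Pi.single_apply, mul_comm, eq_comm]
    · exact sum_congr rfl fun u _ => by ring

lemma phiZ_skew (j k : ℕ) (hj : j < 14) : phiZ k j = - phiZ j k := phiA_skew _ j k hj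

lemma BB_swap13 (y : Fin 8 → A) (u w v : Fin 8) : BB y u w v = - BB y v w u := by
  unfold BB
  rw [sum_comm, ← sum_neg_distrib]
  refine sum_congr rfl fun j hj => ?_
  rw [← sum_neg_distrib]
  refine sum_congr rfl fun k _ => ?_
  rw [phiZ_skew j k (mem_range.1 hj)]
  simp only [map_neg]; ring

variable {y : Fin 8 → A} (hy : ∀ j < 14, rhoA y j = 0)
include hy

lemma drho_phi (u : Fin 8) (l : ℕ) (hl : l < 14) :
    ∑ k ∈ range 14, aeval y (pderiv u (rhoZ k)) * aeval y (phiZ k l) = 0 := by
  have h : ∑ k ∈ range 14, rhoZ k * phiZ k l = 0 := rho_phi X l hl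
  have h2 := congrArg (fun p => aeval y (pderiv u p)) h
  simp only [map_sum, Derivation.leibniz, smul_eq_mul, map_add, map_mul, map_zero] at h2
  rw [← h2]
  refine sum_congr rfl fun k hk => ?_
  rw [aeval_rhoZ, hy k (mem_range.1 hk)]; ring

lemma BB_swap12 (u w v : Fin 8) : BB y u w v = - BB y w u v := by
  rw [eq_neg_iff_add_eq_zero]
  have h1 : ∀ k ∈ range 14, ∑ j ∈ range 14,
      (aeval y (pderiv u (rhoZ j)) * aeval y (pderiv w (phiZ j k)) +
        aeval y (pderiv w (rhoZ j)) * aeval y (pderiv u (phiZ j k)) +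
        aeval y (pderiv u (pderiv w (rhoZ j))) * aeval y (phiZ j k)) = 0 := by
    intro k hk
    have h : ∑ j ∈ range 14, rhoZ j * phiZ j k = 0 := rho_phi X k (mem_range.1 hk)
    have h2 := congrArg (fun p => aeval y (pderiv u (pderiv w p))) h
    simp only [map_sum, Derivation.leibniz, smul_eq_mul, map_add, map_mul, map_zero] at h2
    rw [← h2]
    refine sum_congr rfl fun j hj => ?_
    rw [aeval_rhoZ, hy j (mem_range.1 hj)]; ring
  have h3 : ∑ k ∈ range 14, ∑ j ∈ range 14, aeval y (pderiv u (pderiv w (rhoZ j))) *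
      aeval y (phiZ j k) * aeval y (pderiv v (rhoZ k)) = 0 := by
    rw [sum_comm]
    refine sum_eq_zero fun j hj => ?_
    have := drho_phi hy v j (mem_range.1 hj)
    rw [← neg_eq_zero, ← mul_zero (aeval y (pderiv u (pderiv w (rhoZ j)))), ← this, mul_sum,
      ← sum_neg_distrib]
    refine sum_congr rfl fun k _ => ?_
    rw [phiZ_skew j k (mem_range.1 hj), map_neg]; ring
  have h4 : ∑ k ∈ range 14, (∑ j ∈ range 14,
      (aeval y (pderiv u (rhoZ j)) * aeval y (pderiv w (phiZ j k)) +
        aeval y (pderiv w (rhoZ j)) * aeval y (pderiv u (phiZ j k)) +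
        aeval y (pderiv u (pderiv w (rhoZ j))) * aeval y (phiZ j k))) *
        aeval y (pderiv v (rhoZ k)) = 0 :=
    sum_eq_zero fun k hk => by rw [h1 k hk, zero_mul]
  simp only [sum_mul, add_mul, sum_add_distrib] at h4
  rw [h3, add_zero] at h4
  rw [← h4, BB, BB, sum_comm, add_right_inj, sum_comm]

omit hy in
lemma aeval_pderiv_phiZ (y : Fin 8 → A) (u : Fin 8) (hu : 2 ≤ u) (j k : ℕ) :
    aeval y (pderiv u (phiZ j k)) =
      pair (y 0) (y 1) (phiL j k) [0, sgl u 2, sgl u 3, sgl u 4] := by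
  have h0 : (0 : Fin 8) ≠ u := by rintro rfl; simp at hu
  have h1 : (1 : Fin 8) ≠ u := by rintro rfl; simp at hu
  have e : (mon4 (X : Fin 8 → PZ)).map (pderiv u : Derivation ℤ PZ PZ) =
      [0, sgl u 2, sgl u 3, sgl u 4] := by
    rw [← pderiv_comp_X]; simp [mon4]
  rw [phiZ, phiA, der_pair, e, pderiv_X_of_ne h0, pderiv_X_of_ne h1, zero_mul, zero_mul, zero_add,
    zero_add]
  have := map_pair ((aeval y : PZ →ₐ[ℤ] A) : PZ →+* A) (X 0) (X 1) (phiL j k)
    [0, sgl u 2, sgl u 3, sgl u 4]
  have e2 : ∀ i, ((aeval y : PZ →ₐ[ℤ] A) : PZ →+* A) (sgl u i) = sgl u i :=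
    fun i => congrFun (map_sgl _ u) i
  simp only [List.map_cons, List.map_nil, e2, map_zero] at this
  simpa using this

omit hy in
lemma pair_zero (f g : A) (L : List TL) (es : List A) (h : ∀ e ∈ es, e = 0) :
    pair f g L es = 0 := by
  induction L generalizing es with
  | nil => simp
  | cons l L ih => cases es with
    | nil => simp
    | cons e es => simp [h e (by simp), ih es fun e he => h e (by simp [he])]

lemma BB_z (u w v : Fin 8) (hu : 5 ≤ u) : BB y u w v = 0 := by
  rw [BB_swap12 hy, neg_eq_zero]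
  refine sum_eq_zero fun j _ => sum_eq_zero fun k _ => ?_
  rw [aeval_pderiv_phiZ y u (le_trans (by decide) hu), pair_zero, mul_zero, zero_mul]
  have h2 : (2 : Fin 8) ≠ u := by rintro rfl; simp at hu
  have h3 : (3 : Fin 8) ≠ u := by rintro rfl; simp at hu
  have h4 : (4 : Fin 8) ≠ u := by rintro rfl; simp at hu
  simp [sgl, h2, h3, h4]

lemma sum_der_BB {R : Type*} [CommRing R] [Algebra R A] (D : Derivation R A A) (w v : Fin 8) :
    D (y 0) * BB y 0 w v + D (y 1) * BB y 1 w v + D (y 2) * BB y 2 w v + D (y 3) * BB y 3 w v +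
      D (y 4) * BB y 4 w v = 0 := by
  have h : ∑ u, D (y u) * BB y u w v = 0 := by
    simp only [BB, mul_sum]
    rw [sum_comm]
    refine sum_eq_zero fun j hj => ?_
    rw [sum_comm]
    refine sum_eq_zero fun k _ => ?_
    have := der_aevalZ D y (rhoZ j)
    rw [aeval_rhoZ, hy j (mem_range.1 hj), map_zero] at this
    simp only [← mul_assoc, ← sum_mul, ← this, zero_mul]
  rw [Fin.sum_univ_eight, BB_z hy 5 w v (by decide), BB_z hy 6 w v (by decide),
    BB_z hy 7 w v (by decide)] at h
  simpa using h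

end Crest.Agent.R278
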