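import Mathlib

/-! Row 278 (Lipman–Zariski counterexample): common definitions.
`P = ℂ[f,g]`, `F = Frac P`, `K` a finite extension of `F`, `RR K` = integral closure in `K` of the
localisation of `P` at the origin `nn`. -/

set_option autoImplicit false
namespace Crest.Agent.R278
open MvPolynomial

abbrev P : Type := MvPolynomial (Fin 2) ℂ
abbrev F : Type := FractionRing P
abbrev PZ : Type := MvPolynomial (Fin 8) ℤ

/-- the origin -/
noncomputable def nn : Ideal P := RingHom.ker (constantCoeff : P →+* ℂ)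

lemma mem_nn {s : P} : s ∈ nn ↔ constantCoeff s = 0 := Iff.rfl

instance nn_max : nn.IsMaximal :=
  RingHom.ker_isMaximal_of_surjective _ fun c => ⟨C c, by simp⟩

lemma one_notMem_nn : (1 : P) ∉ nn := by simp [mem_nn]

lemma mul_notMem_nn {s t : P} (hs : s ∉ nn) (ht : t ∉ nn) : s * t ∉ nn := by
  simp only [mem_nn, map_mul] at *
  exact mul_ne_zero hs ht

/-- the elements of `K` integral over `P` localised at the origin -/
def RR (K : Type) [Field K] [Algebra P K] : Subalgebra P K where
  carrier := {a | ∃ s : P, s ∉ nn ∧ IsIntegral P (s • a)}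
  mul_mem' := by
    rintro a b ⟨s, hs, ha⟩ ⟨t, ht, hb⟩
    exact ⟨s * t, mul_notMem_nn hs ht, by rw [← smul_mul_smul_comm]; exact ha.mul hb⟩
  add_mem' := by
    rintro a b ⟨s, hs, ha⟩ ⟨t, ht, hb⟩
    refine ⟨s * t, mul_notMem_nn hs ht, ?_⟩
    have : (s * t) • (a + b) = t • (s • a) + s • (t • b) := by
      rw [smul_add, smul_smul, smul_smul, mul_comm t s]
    rw [this]; exact (ha.smul t).add (hb.smul s)
  algebraMap_mem' := fun p => ⟨1, one_notMem_nn, by simpa using isIntegral_algebraMap⟩

lemma mem_RR {K : Type} [Field K] [Algebra P K] {a : K} :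
    a ∈ RR K ↔ ∃ s : P, s ∉ nn ∧ IsIntegral P (s • a) := Iff.rfl

/-- the frozen statement -/
def Goal : Prop :=
  ∃ (A : Type) (_ : CommRing A) (_ : Algebra ℂ A),
      IsDomain A ∧ Algebra.FiniteType ℂ A ∧ IsIntegrallyClosed A ∧
      ringKrullDim A = 2 ∧
      Nonempty (Derivation ℂ A A ≃ₗ[A] (Fin 2 → A)) ∧
      ∃ (m : Ideal A) (_ : m.IsMaximal), ¬ IsRegularLocalRing (Localization.AtPrime m)

end Crest.Agent.R278
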