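import Crest.Agent.R278.Defs

/-! 278-D: derivations of `K`, the S2 property, basic facts on `RR K`. -/

set_option autoImplicit false
set_option linter.unusedSectionVars false
namespace Crest.Agent.R278
open MvPolynomial

namespace D

/-- the localisation at the origin -/
abbrev Lo : Type := Localization.AtPrime nn

theorem int_iff {A : Type} [CommRing A] [Algebra P A] [Algebra Lo A] [IsScalarTower P Lo A]
    (a : A) : (∃ s : P, s ∉ nn ∧ IsIntegral P (s • a)) ↔ IsIntegral Lo a := by
  constructor
  · rintro ⟨s, hs, h⟩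
    obtain ⟨u, hu⟩ := IsLocalization.map_units Lo (⟨s, hs⟩ : nn.primeCompl)
    have e : a = (↑u⁻¹ : Lo) • (s • a) := by
      rw [← algebraMap_smul Lo s, smul_smul, ← show (u : Lo) = algebraMap P Lo s from hu,
        Units.inv_mul, one_smul]
    rw [e]
    exact (h.tower_top (A := Lo)).smul _
  · intro h
    obtain ⟨m, hm⟩ := h.exists_multiple_integral_of_isLocalization nn.primeCompl
    exact ⟨m, m.2, hm⟩

theorem sub_mem {A : Type} [CommRing A] [Algebra P A] (q : Ideal A)
    (h : ∀ i, algebraMap P A (X i) ∈ q) (p : P) :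
    algebraMap P A p - algebraMap P A (C (constantCoeff p)) ∈ q := by
  induction p using MvPolynomial.induction_on with
  | C a => simp
  | add p r hp hr =>
    have := q.add_mem hp hr
    simp only [map_add]
    convert this using 1
    ring
  | mul_X p i _ => simpa using q.mul_mem_left _ (h i)

theorem mem_range (x : F) (m : ℕ) {a b : P} (ha : x * algebraMap P F (X 0) ^ m = algebraMap P F a)
    (hb : x * algebraMap P F (X 1) ^ m = algebraMap P F b) : x ∈ Set.range (algebraMap P F) := by
  have e : a * X 1 ^ m = X 0 ^ m * b := IsFractionRing.injective P F (by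
    simp only [map_mul, map_pow, ← ha, ← hb]; ring)
  have hp : Prime (X 0 : P) := X_prime
  obtain ⟨c, rfl⟩ : (X 0 : P) ^ m ∣ a := hp.pow_dvd_of_dvd_mul_right m
    (fun h => by simpa using X_dvd_X.1 (hp.dvd_of_dvd_pow h)) ⟨b, e⟩
  refine ⟨c, mul_right_cancel₀ (b := algebraMap P F (X 0) ^ m) (pow_ne_zero _ ?_) ?_⟩
  · simp
  · rw [ha, map_mul, map_pow, mul_comm]

theorem max_of {A : Type} [CommRing A] [Algebra P A]
    (hA : ∀ a : A, ∃ s : P, s ∉ nn ∧ IsIntegral P (s • a)) (q : Ideal A) [q.IsPrime]
    (hX : ∀ i, algebraMap P A (X i) ∈ q) : q.IsMaximal := by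
  have e : ∀ p : P, algebraMap P (A ⧸ q) p = algebraMap P (A ⧸ q) (C (constantCoeff p)) :=
    fun p => Ideal.Quotient.eq.2 (sub_mem q hX p)
  have : Algebra.IsIntegral P (A ⧸ q) := ⟨fun t => by
    obtain ⟨t, rfl⟩ := Ideal.Quotient.mk_surjective t
    obtain ⟨s, hs, h⟩ := hA t
    have h2 := (isIntegral_algebraMap (R := P) (x := C (constantCoeff s)⁻¹)).mul
      (h.map (Ideal.Quotient.mkₐ P q))
    rwa [map_smul, Algebra.smul_def, e s, ← mul_assoc, ← map_mul, ← map_mul,
      inv_mul_cancel₀ hs, map_one, map_one, one_mul] at h2⟩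
  have h2 : (⊥ : Ideal (A ⧸ q)).comap (algebraMap P (A ⧸ q)) = nn :=
    (nn_max.eq_of_le (Ideal.comap_ne_top _ bot_ne_top) fun p hp => by
      rw [Ideal.mem_comap, e p, mem_nn.1 hp]; simp).symm
  exact Ideal.Quotient.maximal_of_isField _ (Ring.isField_iff_maximal_bot.2
    (Ideal.isMaximal_of_isIntegral_of_isMaximal_comap (R := P) _ (h2 ▸ nn_max)))

end D

open D

variable {K : Type} [Field K] [Algebra ℂ K] [Algebra P K] [IsScalarTower ℂ P K]
  [Algebra F K] [IsScalarTower P F K] [FiniteDimensional F K]

omit [Algebra ℂ K] [IsScalarTower ℂ P K] [FiniteDimensional F K] in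
theorem D.inj : Function.Injective (algebraMap P K) := by
  rw [IsScalarTower.algebraMap_eq P F K]
  exact (algebraMap F K).injective.comp (IsFractionRing.injective P F)

/-- derivations of `K` with prescribed values on `f, g` (`P → K` is formally étale). -/
theorem exists_der (α β : K) : ∃ D : Derivation ℂ K K,
    D (algebraMap P K (X 0)) = α ∧ D (algebraMap P K (X 1)) = β := by
  have : Algebra.FormallyEtale P F := Algebra.FormallyEtale.of_isLocalization (nonZeroDivisors P)
  have : Algebra.FormallyEtale F K := Algebra.FormallyEtale.of_isSeparable F K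
  have : Algebra.FormallyEtale P K := Algebra.FormallyEtale.comp P F K
  let d0 : Derivation ℂ P K := mkDerivation ℂ ![α, β]
  let l := (d0.liftKaehlerDifferential.liftBaseChange K) ∘ₗ
    (KaehlerDifferential.tensorKaehlerEquivOfFormallyEtale ℂ P K).symm.toLinearMap
  have key : ∀ p, (l.compDer (KaehlerDifferential.D ℂ K)) (algebraMap P K p) = d0 p := by
    intro p
    change l (KaehlerDifferential.D ℂ K (algebraMap P K p)) = _
    simp [l, KaehlerDifferential.tensorKaehlerEquivOfFormallyEtale_symm_D_algebraMap]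
  exact ⟨_, by rw [key]; simp [d0], by rw [key]; simp [d0]⟩

/-- a derivation on a ring between `P` and `K` is determined by its values on `f, g`. -/
theorem der_eq_zero {A : Type} [CommRing A] [Algebra ℂ A] [Algebra P A] [IsScalarTower ℂ P A]
    [Algebra A K] [IsScalarTower P A K] [IsScalarTower ℂ A K]
    (hinj : Function.Injective (algebraMap A K)) (δ : Derivation ℂ A K)
    (h0 : δ (algebraMap P A (X 0)) = 0) (h1 : δ (algebraMap P A (X 1)) = 0) : δ = 0 := by
  have hP : ∀ p : P, δ (algebraMap P A p) = 0 := by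
    intro p
    have : δ.compAlgebraMap P = 0 := MvPolynomial.derivation_ext fun i => by
      fin_cases i
      exacts [h0, h1]
    exact Derivation.congr_fun this p
  let δ' : Derivation P A K := Derivation.mk'
    { toFun := δ
      map_add' := δ.map_add
      map_smul' := fun p a => by
        rw [Algebra.smul_def, δ.leibniz, hP, smul_zero, add_zero, algebraMap_smul]; rfl }
    δ.leibniz
  ext a
  have key : ∀ (n : ℕ) (p : Polynomial P), p.natDegree < n → p ≠ 0 → Polynomial.aeval a p = 0 →
      δ a = 0 := by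
    intro n
    induction n with
    | zero => intro p h; omega
    | succ n ih =>
      intro p hn hp ha
      have hd : p.natDegree ≠ 0 := by
        intro h
        rw [Polynomial.eq_C_of_natDegree_eq_zero h] at hp ha
        have := congrArg (algebraMap A K) ha
        rw [Polynomial.aeval_C, ← IsScalarTower.algebraMap_apply, map_zero,
          map_eq_zero_iff _ D.inj] at this
        exact hp (by rw [this, map_zero])
      have h2 := δ'.comp_aeval_eq a p
      rw [ha, map_zero, Algebra.smul_def] at h2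
      rcases mul_eq_zero.1 h2.symm with h | h
      · exact ih _ (by have := Polynomial.natDegree_derivative_lt hd; omega)
          (fun h' => hd (Polynomial.derivative_eq_zero.1 h'))
          ((map_eq_zero_iff _ hinj).1 h)
      · exact h
  obtain ⟨p, hp, ha⟩ := (IsFractionRing.isAlgebraic_iff P F K).2
    (Algebra.IsAlgebraic.isAlgebraic (algebraMap A K a))
  rw [Polynomial.aeval_algebraMap_apply, map_eq_zero_iff _ hinj] at ha
  exact key _ p (Nat.lt_succ_self _) hp ha

/-- S2 for the integral closure of `P` in `K`. -/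
theorem isIntegral_of_pow_mul (c : K) (k : ℕ)
    (h0 : IsIntegral P (algebraMap P K (X 0) ^ k * c))
    (h1 : IsIntegral P (algebraMap P K (X 1) ^ k * c)) : IsIntegral P c := by
  have hc : IsIntegral F c := Algebra.IsIntegral.isIntegral c
  have key : ∀ i : Fin 2, IsIntegral P (algebraMap P K (X i) ^ k * c) → ∀ j, ∃ a : P,
      (minpoly F c).coeff j * algebraMap P F (X i) ^ (k * ((minpoly F c).natDegree - j)) =
        algebraMap P F a := by
    intro i h j
    have e1 := minpoly.isIntegrallyClosed_eq_field_fractions' F h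
    have e2 := IsIntegrallyClosed.minpoly_smul (r := algebraMap P F (X i) ^ k)
      (pow_ne_zero _ (by simp)) hc
    rw [Algebra.smul_def, map_pow, ← IsScalarTower.algebraMap_apply, e1] at e2
    have := congrArg (fun p => p.coeff j) e2
    simp only [Polynomial.coeff_map, Polynomial.coeff_scaleRoots, ← pow_mul] at this
    exact ⟨_, this.symm⟩
  have hl : minpoly F c ∈ Polynomial.lifts (algebraMap P F) := by
    rw [Polynomial.lifts_iff_coeff_lifts]
    intro j
    obtain ⟨a, ha⟩ := key 0 h0 j
    obtain ⟨b, hb⟩ := key 1 h1 j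
    exact mem_range _ _ ha hb
  obtain ⟨p, hp, -, hm⟩ := Polynomial.lifts_and_natDegree_eq_and_monic hl (minpoly.monic hc)
  refine ⟨p, hm, ?_⟩
  rw [← Polynomial.aeval_def, ← Polynomial.aeval_map_algebraMap F, hp, minpoly.aeval]

theorem mem_RR_of_pow_mul (c : K) (k : ℕ)
    (h0 : algebraMap P K (X 0) ^ k * c ∈ RR K)
    (h1 : algebraMap P K (X 1) ^ k * c ∈ RR K) : c ∈ RR K := by
  obtain ⟨s, hs, h0⟩ := h0
  obtain ⟨t, ht, h1⟩ := h1
  refine ⟨s * t, mul_notMem_nn hs ht, isIntegral_of_pow_mul _ k ?_ ?_⟩
  · rw [mul_smul_comm, mul_comm s, mul_smul]; exact h0.smul t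
  · rw [mul_smul_comm, mul_smul]; exact h1.smul s

theorem mem_RR_of_isIntegral (c : K) (h : IsIntegral (RR K) c) : c ∈ RR K := by
  have hu : ∀ s : nn.primeCompl, IsUnit (algebraMap P K s) := fun s =>
    IsUnit.mk0 _ fun h => s.2 (by rw [(map_eq_zero_iff _ D.inj).1 h]; exact zero_mem _)
  let _ : Algebra Lo K := (IsLocalization.lift (S := Lo) hu).toAlgebra
  have : IsScalarTower P Lo K :=
    IsScalarTower.of_algebraMap_eq fun p => (IsLocalization.lift_eq hu p).symm
  let φ : RR K →+* integralClosure Lo K :=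
    (algebraMap (RR K) K).codRestrict _ fun a => (int_iff a.1).1 a.2
  exact (int_iff c).2 (isIntegral_trans (A := integralClosure Lo K) c
    (h.map_of_comp_eq φ (RingHom.id K) rfl))

theorem inv_mem_RR (s : P) (hs : s ∉ nn) : (algebraMap P K s)⁻¹ ∈ RR K := by
  have h : algebraMap P K s ≠ 0 :=
    fun h => hs (by rw [(map_eq_zero_iff _ D.inj).1 h]; exact zero_mem _)
  exact ⟨s, hs, by rw [Algebra.smul_def, mul_inv_cancel₀ h]; exact isIntegral_one⟩

/-- every maximal ideal of a subring of `RR K` containing the localisation lies over the origin -/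
theorem X_mem_of_isMaximal (T : Subalgebra P K) (hT : T ≤ RR K)
    (hinv : ∀ s : P, s ∉ nn → (algebraMap P K s)⁻¹ ∈ T) (M : Ideal T) (hM : M.IsMaximal)
    (i : Fin 2) : algebraMap P T (X i) ∈ M := by
  have hu : ∀ s : nn.primeCompl, IsUnit (algebraMap P T s) := fun s =>
    IsUnit.of_mul_eq_one ⟨_, hinv s s.2⟩ (Subtype.ext (mul_inv_cancel₀
      fun h => s.2 (by rw [(map_eq_zero_iff _ D.inj).1 h]; exact zero_mem _)))
  let _ : Algebra Lo T := (IsLocalization.lift (S := Lo) hu).toAlgebra
  have : IsScalarTower P Lo T :=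
    IsScalarTower.of_algebraMap_eq fun p => (IsLocalization.lift_eq hu p).symm
  have : Algebra.IsIntegral Lo T := ⟨fun t => by
    obtain ⟨s, hs, h⟩ := hT t.2
    exact (int_iff t).1 ⟨s, hs, (isIntegral_algHom_iff T.val Subtype.val_injective).1 h⟩⟩
  have h := IsLocalRing.eq_maximalIdeal
    (Ideal.isMaximal_comap_of_isIntegral_of_isMaximal (R := Lo) M)
  rw [IsScalarTower.algebraMap_apply P Lo T, ← Ideal.mem_comap, h,
    IsLocalization.AtPrime.to_map_mem_maximal_iff Lo nn]
  simp [mem_nn]

/-- a prime of a subring of `RR K` lying over the origin is maximal -/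
theorem isMaximal_of_X_mem (T : Subalgebra P K) (hT : T ≤ RR K) (q : Ideal T) (hq : q.IsPrime)
    (h0 : algebraMap P T (X 0) ∈ q) (h1 : algebraMap P T (X 1) ∈ q) : q.IsMaximal := by
  refine max_of (fun t => ?_) q fun i => ?_
  · obtain ⟨s, hs, h⟩ := hT t.2
    exact ⟨s, hs, (isIntegral_algHom_iff T.val Subtype.val_injective).1 h⟩
  · fin_cases i
    exacts [h0, h1]

end Crest.Agent.R278
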