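import Mathlib

/-! Reflection engine: truncated polynomials in `f, g` as Kronecker-packed natural numbers. -/

set_option autoImplicit false
namespace Crest.Agent.R278

abbrev Tm : Type := ℤ × ℕ × ℕ
abbrev TL : Type := List Tm

def tp (c a b : ℕ) : Tm := (Int.ofNat c, a, b)
def tn (c a b : ℕ) : Tm := (Int.negSucc c, a, b)

def un (k : ℕ) : List TL := List.replicate k [] ++ [[tp 1 0 0]]

section ev
variable {Q : Type*} [CommRing Q]

def ev (f g : Q) : TL → Q
  | [] => 0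
  | t :: l => (t.1 : Q) * f ^ t.2.1 * g ^ t.2.2 + ev f g l

@[simp] lemma ev_nil (f g : Q) : ev f g [] = 0 := rfl
@[simp] lemma ev_cons (f g : Q) (t : Tm) (l : TL) :
    ev f g (t :: l) = (t.1 : Q) * f ^ t.2.1 * g ^ t.2.2 + ev f g l := rfl

lemma ev_append (f g : Q) (p q : TL) : ev f g (p ++ q) = ev f g p + ev f g q := by
  induction p with
  | nil => simp
  | cons t p ih => simp [ih, add_assoc]

def tmul (s t : Tm) : Tm := (s.1 * t.1, s.2.1 + t.2.1, s.2.2 + t.2.2)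

def lmul : TL → TL → TL
  | [], _ => []
  | s :: p, q => q.map (tmul s) ++ lmul p q

lemma ev_map_tmul (f g : Q) (s : Tm) (q : TL) :
    ev f g (q.map (tmul s)) = (s.1 : Q) * f ^ s.2.1 * g ^ s.2.2 * ev f g q := by
  induction q with
  | nil => simp
  | cons t q ih => simp only [List.map_cons, ev_cons, ih, tmul]; push_cast; ring

lemma ev_lmul (f g : Q) (p q : TL) : ev f g (lmul p q) = ev f g p * ev f g q := by
  induction p with
  | nil => simp [lmul]
  | cons s p ih => simp only [lmul, ev_append, ev_map_tmul, ih, ev_cons]; ring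

lemma mem_lmul {p q : TL} {u : Tm} (h : u ∈ lmul p q) : ∃ s ∈ p, ∃ t ∈ q, u = tmul s t := by
  induction p with
  | nil => simp [lmul] at h
  | cons s p ih =>
    simp only [lmul, List.mem_append, List.mem_map] at h
    rcases h with ⟨t, ht, rfl⟩ | h
    · exact ⟨s, by simp, t, ht, rfl⟩
    · obtain ⟨s', hs, t, ht, rfl⟩ := ih h
      exact ⟨s', by simp [hs], t, ht, rfl⟩

lemma map_ev {Q' : Type*} [CommRing Q'] (φ : Q →+* Q') (f g : Q) (p : TL) :
    φ (ev f g p) = ev (φ f) (φ g) p := by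
  induction p with
  | nil => simp
  | cons t p ih => simp [ih]

end ev

def labs (p : TL) : TL := p.map fun t => (|t.1|, t.2)

lemma labs_append (p q : TL) : labs (p ++ q) = labs p ++ labs q := by simp [labs]

lemma labs_lmul (p q : TL) : labs (lmul p q) = lmul (labs p) (labs q) := by
  induction p with
  | nil => simp [lmul, labs]
  | cons s p ih =>
    have : labs (s :: p) = (|s.1|, s.2) :: labs p := rfl
    rw [this, lmul, lmul, labs_append, ih]
    congr 1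
    simp [labs, tmul, abs_mul]

def nrm (r : ℚ) (p : TL) : ℚ := ev r r (labs p)

lemma nrm_cons (r : ℚ) (t : Tm) (p : TL) :
    nrm r (t :: p) = ((|t.1| : ℤ) : ℚ) * r ^ (t.2.1 + t.2.2) + nrm r p := by
  simp [nrm, labs, pow_add, mul_assoc]

lemma nrm_nonneg {r : ℚ} (hr : 0 ≤ r) (p : TL) : 0 ≤ nrm r p := by
  induction p with
  | nil => simp [nrm, labs]
  | cons t p ih => rw [nrm_cons]; positivity

lemma ev_eq_zero_of_nrm {Q : Type*} [CommRing Q] (f g : Q) {r : ℚ} (hr : 0 < r) (p : TL)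
    (h : nrm r p ≤ 0) : ev f g p = 0 := by
  induction p with
  | nil => simp
  | cons t p ih =>
    rw [nrm_cons] at h
    have h1 := nrm_nonneg hr.le p
    have h2 : (0 : ℚ) ≤ ((|t.1| : ℤ) : ℚ) * r ^ (t.2.1 + t.2.2) := by positivity
    have h3 : ((|t.1| : ℤ) : ℚ) * r ^ (t.2.1 + t.2.2) = 0 := by linarith
    have h4 : t.1 = 0 := by
      rcases mul_eq_zero.1 h3 with h | h
      · exact_mod_cast abs_eq_zero.1 (by exact_mod_cast h)
      · exact absurd h (by positivity)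
    simp [h4, ih (by linarith)]

/-- parameters: `g ↦ Y^S`, `f ↦ Y^(S+1)`, truncation at degree `K`, growth `2^cb` per degree,
degree cap `D`, and the modulus `m = Y^(S K)`. -/
structure Cx where
  S : ℕ
  Y : ℕ
  K : ℕ
  cb : ℕ
  D : ℕ
  m : ℕ

def Cx.mk' (S B K cb D : ℕ) : Cx := ⟨S, 2 ^ B + 1, K, cb, D, (2 ^ B + 1) ^ (S * K)⟩

def Cx.Ok (c : Cx) : Prop := c.K + 6 ≤ c.S ∧ 0 < c.Y ∧ c.m = c.Y ^ (c.S * c.K)

lemma Cx.mk'_ok {S B K cb D : ℕ} (h : K + 6 ≤ S) : (Cx.mk' S B K cb D).Ok := ⟨h, Nat.succ_pos _, rfl⟩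

structure KV where
  v : ℕ
  b : ℕ
  w : ℕ
  d : ℕ

def frc {α : Type} (n : ℕ) (k : ℕ → α) : α :=
  match n with
  | 0 => k 0
  | n + 1 => k (Nat.succ n)

@[simp] lemma frc_eq {α : Type} (n : ℕ) (k : ℕ → α) : frc n k = k n := by
  cases n <;> rfl

def mkF (v b w d : ℕ) : KV := frc v fun v => frc b fun b => frc w fun w => frc d fun d => ⟨v, b, w, d⟩

@[simp] lemma mkF_eq (v b w d : ℕ) : mkF v b w d = ⟨v, b, w, d⟩ := by simp [mkF]

def kz : KV := ⟨0, 0, 0, 0⟩

def nmax (a b : ℕ) : ℕ := bif Nat.ble a b then b else a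

lemma le_nmax_left (a b : ℕ) : a ≤ nmax a b := by
  unfold nmax; cases h : Nat.ble a b
  · simp
  · simpa using Nat.le_of_ble_eq_true h

lemma le_nmax_right (a b : ℕ) : b ≤ nmax a b := by
  unfold nmax; cases h : Nat.ble a b
  · have : ¬ a ≤ b := fun h' => by rw [Nat.ble_eq_true_of_le h'] at h; cases h
    simp; omega
  · simp

def kadd : KV → KV → KV
  | ⟨v1, b1, w1, d1⟩, ⟨v2, b2, w2, d2⟩ =>
    bif Nat.beq b1 0 then ⟨v2, b2, w2, d2⟩ else bif Nat.beq b2 0 then ⟨v1, b1, w1, d1⟩ else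
      mkF (Nat.add v1 v2) (Nat.add b1 b2) (bif Nat.beq w1 w2 then w1 else 7) (nmax d1 d2)

def kmul (m : ℕ) : KV → KV → KV
  | ⟨v1, b1, w1, d1⟩, ⟨v2, b2, w2, d2⟩ =>
    bif Nat.beq b1 0 then kz else bif Nat.beq b2 0 then kz else
      mkF (Nat.mod (Nat.mul v1 v2) m) (Nat.mul b1 b2)
        (bif Nat.ble 7 (nmax w1 w2) then 7 else Nat.mod (Nat.add w1 w2) 7) (Nat.add d1 d2)

def ex (S a b : ℕ) : ℕ := Nat.add (Nat.mul (Nat.succ S) a) (Nat.mul S b)

def kterm (c : Cx) : Tm → KV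
  | (Int.ofNat n, a, b) => mkF (Nat.mul n (Nat.pow c.Y (ex c.S a b)))
      (Nat.succ (Nat.shiftRight n (Nat.mul c.cb (Nat.add a b)))) (Nat.mod (ex c.S a b) 7) (Nat.add a b)
  | (Int.negSucc n, a, b) => mkF (Nat.sub c.m
        (Nat.mod (Nat.mul (Nat.succ n) (Nat.pow c.Y (ex c.S a b))) c.m))
      (Nat.succ (Nat.shiftRight (Nat.succ n) (Nat.mul c.cb (Nat.add a b))))
      (Nat.mod (ex c.S a b) 7) (Nat.add a b)

def toK (c : Cx) : TL → KV
  | [] => kz
  | t :: l => kadd (kterm c t) (toK c l)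

def kisZ (c : Cx) : KV → Bool
  | ⟨v, b, w, d⟩ => Nat.beq b 0 || (Nat.beq (Nat.mod v c.m) 0 && Nat.ble w 6 && Nat.ble d c.D &&
      Nat.ble (Nat.succ (Nat.shiftLeft b (Nat.mul c.cb c.K))) (Nat.pow c.Y 7))

/-! vectors -/
abbrev Vec : Type := List KV

def vadd : Vec → Vec → Vec
  | [], v => v
  | a :: u, [] => a :: u
  | a :: u, b :: v => kadd a b :: vadd u v

def vsm (m : ℕ) (a : KV) : Vec → Vec
  | [] => []
  | b :: v => kmul m a b :: vsm m a v

def comb (m : ℕ) : Vec → List Vec → Vec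
  | [], _ => []
  | _ :: _, [] => []
  | ⟨v, b, w, d⟩ :: u, T :: Ts =>
    bif Nat.beq b 0 then comb m u Ts else vadd (vsm m ⟨v, b, w, d⟩ T) (comb m u Ts)

def toV (c : Cx) : List TL → Vec
  | [] => []
  | l :: L => toK c l :: toV c L

def visZ (c : Cx) : Vec → Bool
  | [] => true
  | a :: v => kisZ c a && visZ c v

def vsum (F : ℕ → Vec) : ℕ → Vec
  | 0 => []
  | n + 1 => vadd (F n) (vsum F n)

end Crest.Agent.R278
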