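import Mathlib

/-! 278-E: consequences of the ring homomorphism `exp (T D) : A → A⟦T⟧`. -/

set_option autoImplicit false
namespace Crest.Agent.R278

namespace E
open PowerSeries

variable {A : Type} [CommRing A] [Algebra ℂ A] (D : Derivation ℂ A A)

/-- `exp (T D) a`. -/
noncomputable def ex (a : A) : A⟦X⟧ := mk fun n => ((n.factorial : ℂ)⁻¹) • (D : A → A)^[n] a

theorem coeff_ex (a : A) (n : ℕ) :
    coeff n (ex D a) = ((n.factorial : ℂ)⁻¹) • (D : A → A)^[n] a := coeff_mk _ _

theorem iter_add (n : ℕ) (a b : A) :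
    (D : A → A)^[n] (a + b) = (D : A → A)^[n] a + (D : A → A)^[n] b := by
  induction n generalizing a b with
  | zero => rfl
  | succ n ih => simp only [Function.iterate_succ_apply, map_add, ih]

theorem iter_zero (n : ℕ) : (D : A → A)^[n] 0 = 0 :=
  Function.iterate_fixed (map_zero D) n

theorem ex_add (a b : A) : ex D (a + b) = ex D a + ex D b := by
  ext n
  simp only [coeff_ex, map_add, iter_add, smul_add]

theorem ex_zero : ex D 0 = 0 := by
  ext n
  simp only [coeff_ex, iter_zero, smul_zero, map_zero]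

theorem const_ex (a : A) : constantCoeff (ex D a) = a := by
  rw [← coeff_zero_eq_constantCoeff_apply, coeff_ex]; simp

theorem coeff_one_ex (a : A) : coeff 1 (ex D a) = D a := by
  rw [coeff_ex]; simp

theorem mul_succ (x : A) (n : ℕ) : x * (n + 1) = ((n : ℂ) + 1) • x := by
  rw [Algebra.smul_def, mul_comm]; simp

theorem cancel {x y : A} {n : ℕ} (h : x * (n + 1) = y * (n + 1)) : x = y := by
  rw [mul_succ, mul_succ] at h
  have h0 : ((n : ℂ) + 1) ≠ 0 := by exact_mod_cast n.succ_ne_zero
  rw [← inv_smul_smul₀ h0 x, h, inv_smul_smul₀ h0]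

theorem der_ex (a : A) : derivative A (ex D a) = ex D (D a) := by
  ext n
  have h0 : ((n : ℂ) + 1) ≠ 0 := by exact_mod_cast n.succ_ne_zero
  have h1 : (n.factorial : ℂ) ≠ 0 := by exact_mod_cast n.factorial_ne_zero
  rw [coeff_derivative, coeff_ex, coeff_ex, mul_succ, smul_smul, Function.iterate_succ_apply,
    Nat.factorial_succ]
  congr 1
  push_cast
  field_simp

theorem ex_mul (a b : A) : ex D (a * b) = ex D a * ex D b := by
  ext n
  induction n generalizing a b with
  | zero => simp only [coeff_zero_eq_constantCoeff_apply, map_mul, const_ex]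
  | succ n ih =>
    refine cancel (n := n) ?_
    rw [← coeff_derivative, ← coeff_derivative, der_ex, Derivation.leibniz, Derivation.leibniz,
      der_ex, der_ex, smul_eq_mul, smul_eq_mul, smul_eq_mul, smul_eq_mul, ex_add, map_add, map_add,
      ih, ih]

theorem ex_one : ex D 1 = 1 := by
  ext n
  cases n with
  | zero => rw [coeff_zero_eq_constantCoeff_apply, const_ex]; simp
  | succ n =>
    rw [coeff_ex, Function.iterate_succ_apply, D.map_one_eq_zero, iter_zero, smul_zero, coeff_one,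
      if_neg n.succ_ne_zero]

/-- `exp (T D)` as a ring homomorphism. -/
noncomputable def exH : A →+* A⟦X⟧ where
  toFun := ex D
  map_one' := ex_one D
  map_mul' := ex_mul D
  map_zero' := ex_zero D
  map_add' := ex_add D

theorem exH_apply (a : A) : exH D a = ex D a := rfl

/-- power series with coefficients in `B` -/
def cf (B : Subalgebra ℂ A) : Subring A⟦X⟧ where
  carrier := {φ | ∀ n, coeff n φ ∈ B}
  mul_mem' := fun {φ ψ} h1 h2 n => by
    rw [coeff_mul]; exact sum_mem fun _ _ => mul_mem (h1 _) (h2 _)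
  one_mem' := fun n => by rw [coeff_one]; split_ifs; exacts [one_mem B, zero_mem B]
  add_mem' := fun {φ ψ} h1 h2 n => by rw [map_add]; exact add_mem (h1 _) (h2 _)
  zero_mem' := fun n => by rw [map_zero]; exact zero_mem B
  neg_mem' := fun {φ} h n => by rw [map_neg]; exact neg_mem (h _)

theorem C_mem {B : Subalgebra ℂ A} {b : A} (hb : b ∈ B) : C b ∈ cf B := fun n => by
  rw [coeff_C]; split_ifs; exacts [hb, zero_mem B]

theorem ex_mem {B : Subalgebra ℂ A} (hD : ∀ b ∈ B, D b ∈ B) {b : A} (hb : b ∈ B) :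
    exH D b ∈ cf B := fun n => by
  rw [exH_apply, coeff_ex]
  refine B.smul_mem ?_ _
  induction n with
  | zero => exact hb
  | succ n ih => rw [Function.iterate_succ_apply']; exact hD _ ih

theorem almost {B : Subalgebra ℂ A} (hD : ∀ b ∈ B, D b ∈ B) {a c : A} (h : ∀ n, c * a ^ n ∈ B)
    (n : ℕ) : c * c * D a ^ n ∈ B := by
  have h1 : C c * exH D c * (exH D a + C (-a)) ^ n ∈ cf B := by
    rw [add_pow, Finset.mul_sum]
    refine sum_mem fun k _ => ?_
    have e : C c * exH D c * (exH D a ^ k * C (-a) ^ (n - k) * (n.choose k : A⟦X⟧)) =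
        exH D (c * a ^ k) * C ((-1) ^ (n - k) * (c * a ^ (n - k))) * (n.choose k : A⟦X⟧) := by
      simp only [map_mul, map_pow, map_neg, map_one]
      rw [neg_pow (C a)]
      ring
    rw [e]
    exact mul_mem (mul_mem (ex_mem D hD (h k))
      (C_mem (mul_mem (pow_mem (neg_mem (one_mem B)) _) (h _)))) (natCast_mem _ _)
  have h2 : exH D a + C (-a) = X * mk fun p => coeff (p + 1) (exH D a) := by
    rw [← sub_const_eq_X_mul_shift, exH_apply, const_ex, map_neg, sub_eq_add_neg]
  have h3 := h1 n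
  rw [h2, mul_pow, mul_left_comm] at h3
  have h4 := coeff_X_pow_mul (C c * exH D c * (mk fun p => coeff (p + 1) (exH D a)) ^ n) n 0
  rw [zero_add] at h4
  rw [h4, coeff_zero_eq_constantCoeff_apply, map_mul, map_mul, map_pow, constantCoeff_C, exH_apply,
    const_ex, ← coeff_zero_eq_constantCoeff_apply, coeff_mk, zero_add, exH_apply,
    coeff_one_ex] at h3
  exact h3

theorem dvd_of_cube {k : Type} [CommRing k] [IsDomain k] {φ : k⟦X⟧} {j : ℕ} (h1 : X ^ j ∣ φ)
    (h2 : X ^ (3 * j + 1) ∣ φ ^ 3) : X ^ (j + 1) ∣ φ := by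
  obtain ⟨ψ, rfl⟩ := h1
  rw [mul_pow, ← pow_mul, mul_comm j, pow_succ,
    mul_dvd_mul_iff_left (pow_ne_zero _ X_ne_zero)] at h2
  rw [pow_succ]
  exact mul_dvd_mul_left _ (X_prime.dvd_of_dvd_pow h2)

end E

open E

/-- Seidenberg: a derivation preserving a Noetherian domain preserves its normalisation. -/
theorem seidenberg {K : Type} [Field K] [Algebra ℂ K] (B : Subalgebra ℂ K) [IsNoetherianRing B]
    (hfrac : ∀ a : K, ∃ c ∈ B, c ≠ 0 ∧ c * a ∈ B) (D : Derivation ℂ K K)
    (hD : ∀ b ∈ B, D b ∈ B) (a : K) (ha : IsIntegral B a) : IsIntegral B (D a) := by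
  obtain ⟨c, hc, hc0, hca⟩ := hfrac a
  obtain ⟨r, hr, hr'⟩ := ha.isAlmostIntegral_of_exists_smul_mem_range
    ⟨⟨c, hc⟩, mem_nonZeroDivisors_of_ne_zero fun h => hc0 (congrArg Subtype.val h), ⟨_, hca⟩, rfl⟩
  refine IsAlmostIntegral.isIntegral ⟨r * r, mul_mem hr hr, fun n => ⟨⟨_, almost D hD (c := r)
    (a := a) (fun n => ?_) n⟩, rfl⟩⟩
  obtain ⟨b, hb⟩ := hr' n
  exact (show (b : K) = r * a ^ n from hb) ▸ b.2

open PowerSeries in
/-- If `(f,g)` is a reduction of `m0`, and `D f, D g ∈ m0`, then `D` vanishes at the point `M`. -/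
theorem der_mem_of_reduction {A : Type} [CommRing A] [Algebra ℂ A] (D : Derivation ℂ A A)
    (M : Ideal A) (hM : M.IsMaximal) (f g : A) (hf : f ∈ M) (hg : g ∈ M)
    (hmax : ∀ q : Ideal A, q.IsPrime → f ∈ q → g ∈ q → q.IsMaximal)
    (Y : Set A) (hY : ∀ y ∈ Y, y ^ 3 ∈ Ideal.span {f, g} * (Ideal.span {f, g} ⊔ Ideal.span Y) ^ 2)
    (hDf : D f ∈ Ideal.span {f, g} ⊔ Ideal.span Y) (hDg : D g ∈ Ideal.span {f, g} ⊔ Ideal.span Y)
    (a : A) (ha : a ∈ M) : D a ∈ M := by
  haveI := hM.isPrime
  let τ : A →+* (A ⧸ M)⟦X⟧ := (PowerSeries.map (Ideal.Quotient.mk M)).comp (exH D)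
  have hτ : ∀ x n, coeff n (τ x) = Ideal.Quotient.mk M (coeff n (ex D x)) := fun x n => by
    simp only [τ, RingHom.comp_apply, coeff_map, exH_apply]
  let I : ℕ → Ideal A := fun n => (Ideal.span {(X : (A ⧸ M)⟦X⟧) ^ n}).comap τ
  have hI : ∀ n x, x ∈ I n ↔ X ^ n ∣ τ x := fun n x => by
    simp only [I, Ideal.mem_comap, Ideal.mem_span_singleton]
  have hmul : ∀ i j, I i * I j ≤ I (i + j) := fun i j => Ideal.mul_le.2 fun x hx y hy => by
    rw [hI] at *
    rw [map_mul, pow_add]
    exact mul_dvd_mul hx hy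
  have hmono : ∀ i j, i ≤ j → I j ≤ I i := fun i j h x hx => by
    rw [hI] at *
    exact (pow_dvd_pow _ h).trans hx
  have hstep : ∀ n x, x ∈ M → D x ∈ I n → x ∈ I (n + 1) := fun n x hx h => by
    rw [hI, X_pow_dvd_iff] at *
    intro m hm
    cases m with
    | zero =>
      rw [hτ, coeff_zero_eq_constantCoeff_apply, const_ex, Ideal.Quotient.eq_zero_iff_mem]
      exact hx
    | succ m =>
      have := h m (by omega)
      rw [hτ, ← der_ex, coeff_derivative, map_mul] at this
      rw [hτ]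
      refine cancel (n := m) ?_
      rw [zero_mul, ← this]
      simp
  have key : ∀ n, Ideal.span {f, g} ≤ I n := fun n => by
    induction n with
    | zero => intro x _; rw [hI]; simp
    | succ n ih =>
      have h2 : ∀ k ≤ n, Ideal.span Y ≤ I k := fun k hk => by
        induction k with
        | zero => intro x _; rw [hI]; simp
        | succ k ihk =>
          have h3 := ihk (by omega)
          have h4 : Ideal.span {f, g} ⊔ Ideal.span Y ≤ I k :=
            sup_le (ih.trans (hmono _ _ (by omega))) h3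
          refine Ideal.span_le.2 fun y hy => (hI _ _).2 (dvd_of_cube ((hI _ _).1
            (h3 (Ideal.subset_span hy))) ?_)
          rw [← map_pow, ← hI, show 3 * k + 1 = (k + 1) + (k + k) by ring]
          refine hmul _ _ (Ideal.mul_mono (ih.trans (hmono _ _ hk)) ?_ (hY y hy))
          rw [sq]
          exact (Ideal.mul_mono h4 h4).trans (hmul _ _)
      have h5 : Ideal.span {f, g} ⊔ Ideal.span Y ≤ I n := sup_le ih (h2 n le_rfl)
      refine Ideal.span_le.2 ?_
      rintro x (rfl | rfl)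
      exacts [hstep n _ hf (h5 hDf), hstep n _ hg (h5 hDg)]
  have hker : ∀ x ∈ Ideal.span {f, g}, x ∈ RingHom.ker τ := fun x hx => by
    rw [RingHom.mem_ker]
    ext n
    exact X_pow_dvd_iff.1 ((hI _ _).1 (key (n + 1) hx)) n n.lt_succ_self
  have hq := hmax _ (RingHom.ker_isPrime τ) (hker f (Ideal.subset_span (by simp)))
    (hker g (Ideal.subset_span (by simp)))
  have hle : RingHom.ker τ ≤ M := fun x hx => by
    have := hτ x 0
    rw [RingHom.mem_ker.1 hx, map_zero, coeff_zero_eq_constantCoeff_apply, const_ex] at this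
    exact Ideal.Quotient.eq_zero_iff_mem.1 this.symm
  have h0 : τ a = 0 := by
    rw [← RingHom.mem_ker, hq.eq_of_le hM.ne_top hle]; exact ha
  have := hτ a 1
  rw [h0, map_zero, coeff_one_ex] at this
  exact Ideal.Quotient.eq_zero_iff_mem.1 this.symm

end Crest.Agent.R278
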