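import Crest.Agent.R278.Der

/-! 278-C: from two derivations of `K` to the counterexample. -/

set_option autoImplicit false
set_option linter.style.haveILetI false
set_option linter.unusedVariables false
set_option linter.unusedSectionVars false
namespace Crest.Agent.R278
open MvPolynomial

namespace C

theorem two_gen {A : Type} [CommRing A] [IsNoetherianRing A] (m : Ideal A) [m.IsMaximal]
    (hdim : ringKrullDim A ≤ 2) (hreg : IsRegularLocalRing (Localization.AtPrime m)) :
    ∃ t₁ ∈ m, ∃ t₂ ∈ m, ∀ a ∈ m, ∃ s ∉ m, ∃ x₁ x₂, s * a = x₁ * t₁ + x₂ * t₂ := by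
  classical
  set L := Localization.AtPrime m
  have h1 : (IsLocalRing.maximalIdeal L).spanFinrank ≤ 2 := by
    have h := hreg.spanFinrank_maximalIdeal
    rw [IsLocalization.AtPrime.ringKrullDim_eq_height m L] at h
    have h2 := (h.le.trans m.height_le_ringKrullDim_of_isPrime).trans hdim
    exact_mod_cast h2
  obtain ⟨s, hs1, hs2⟩ := Submodule.FG.exists_span_finset_card_eq_spanFinrank
    (IsNoetherian.noetherian (IsLocalRing.maximalIdeal L))
  obtain ⟨y₁, y₂, hy₁, hy₂, hy⟩ : ∃ y₁ y₂, y₁ ∈ IsLocalRing.maximalIdeal L ∧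
      y₂ ∈ IsLocalRing.maximalIdeal L ∧ IsLocalRing.maximalIdeal L ≤ Ideal.span {y₁, y₂} := by
    have hm : ∀ y ∈ s, y ∈ IsLocalRing.maximalIdeal L := fun y hy =>
      hs2 ▸ Submodule.subset_span hy
    rw [← hs1] at h1
    rw [← hs2]
    obtain h | h | h : s.card = 0 ∨ s.card = 1 ∨ s.card = 2 := by omega
    · obtain rfl := Finset.card_eq_zero.1 h
      exact ⟨0, 0, zero_mem _, zero_mem _, by simp⟩
    · obtain ⟨y, rfl⟩ := Finset.card_eq_one.1 h
      exact ⟨y, y, Submodule.subset_span (by simp), Submodule.subset_span (by simp), by simp⟩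
    · obtain ⟨y, z, -, rfl⟩ := Finset.card_eq_two.1 h
      exact ⟨y, z, Submodule.subset_span (by simp), Submodule.subset_span (by simp), by simp⟩
  obtain ⟨t₁, s₁, rfl⟩ := IsLocalization.exists_mk'_eq m.primeCompl y₁
  obtain ⟨t₂, s₂, rfl⟩ := IsLocalization.exists_mk'_eq m.primeCompl y₂
  refine ⟨t₁, (IsLocalization.AtPrime.mk'_mem_maximal_iff L m _ _).1 hy₁,
    t₂, (IsLocalization.AtPrime.mk'_mem_maximal_iff L m _ _).1 hy₂, fun a ha => ?_⟩
  have h2 : algebraMap A L a ∈ (Ideal.span {t₁, t₂}).map (algebraMap A L) := by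
    refine (hy.trans (Ideal.span_le.2 ?_))
      ((IsLocalization.AtPrime.to_map_mem_maximal_iff L m a).2 ha)
    rintro _ (rfl | rfl)
    · rw [IsLocalization.mk'_eq_mul_mk'_one]
      exact Ideal.mul_mem_right _ _ (Ideal.mem_map_of_mem _ (Ideal.subset_span (by simp)))
    · rw [IsLocalization.mk'_eq_mul_mk'_one]
      exact Ideal.mul_mem_right _ _ (Ideal.mem_map_of_mem _ (Ideal.subset_span (by simp)))
  obtain ⟨σ, hσ, h3⟩ := (IsLocalization.algebraMap_mem_map_algebraMap_iff m.primeCompl L _ a).1 h2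
  obtain ⟨x₁, x₂, h4⟩ := Ideal.mem_span_pair.1 h3
  exact ⟨σ, hσ, x₁, x₂, h4.symm⟩

theorem not_regular {A : Type} [CommRing A] [IsDomain A] [Algebra ℂ A] [IsNoetherianRing A]
    (V : Fin 2 → Derivation ℂ A A) (m : Ideal A) [hm : m.IsMaximal] (hdim : ringKrullDim A ≤ 2)
    (hres : ∀ a, ∃ c : ℂ, a - algebraMap ℂ A c ∈ m) (hV : ∀ i, ∀ a ∈ m, V i a ∈ m)
    (φ : Fin 2 → A) (hφ : φ 0 ≠ 0) (u w : Fin 3 → A) (c : Fin 2 → Fin 3 → A)
    (h3 : ∀ i, φ i = ∑ j, c i j * (V 0 (u j) * V 1 (w j) - V 0 (w j) * V 1 (u j)))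
    (S2 : ∀ r d : A, d ≠ 0 → (∀ i, d ∣ r * φ i) → d ∣ r) :
    ¬ IsRegularLocalRing (Localization.AtPrime m) := by
  intro hreg
  obtain ⟨t₁, ht₁, t₂, ht₂, ht⟩ := two_gen m hdim hreg
  let gr : A → A × A := fun a => (V 0 a, V 1 a)
  let G : Submodule A (A × A) := Submodule.span A (Set.range gr)
  have hG : ∀ a, gr a ∈ G := fun a => Submodule.subset_span ⟨a, rfl⟩
  let N : Submodule A (A × A) := Submodule.span A {gr t₁, gr t₂}
  have hle : G ≤ N ⊔ m • G := by
    refine Submodule.span_le.2 ?_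
    rintro _ ⟨a, rfl⟩
    obtain ⟨c, hc⟩ := hres a
    obtain ⟨s, hs, x₁, x₂, e⟩ := ht _ hc
    obtain ⟨s', μ, hμ, e'⟩ := hm.exists_inv hs
    have e1 : ∀ i, s * V i a + (a - algebraMap ℂ A c) * V i s =
        x₁ * V i t₁ + t₁ * V i x₁ + (x₂ * V i t₂ + t₂ * V i x₂) := fun i => by
      have := congrArg (V i) e
      simpa [Derivation.leibniz] using this
    have e2 : gr a = (s' * x₁) • gr t₁ + (s' * x₂) • gr t₂ + ((s' * t₁) • gr x₁ +
        (s' * t₂) • gr x₂ - (s' * (a - algebraMap ℂ A c)) • gr s + μ • gr a) := by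
      refine Prod.ext ?_ ?_
      · simp only [gr, Prod.fst_add, Prod.fst_sub, Prod.smul_fst, smul_eq_mul]
        linear_combination s' * e1 0 - V 0 a * e'
      · simp only [gr, Prod.snd_add, Prod.snd_sub, Prod.smul_snd, smul_eq_mul]
        linear_combination s' * e1 1 - V 1 a * e'
    rw [SetLike.mem_coe, e2]
    refine Submodule.add_mem_sup (add_mem (N.smul_mem _ (Submodule.subset_span (by simp)))
      (N.smul_mem _ (Submodule.subset_span (by simp)))) ?_
    exact add_mem (sub_mem (add_mem (Submodule.smul_mem_smul (m.mul_mem_left _ ht₁) (hG _))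
      (Submodule.smul_mem_smul (m.mul_mem_left _ ht₂) (hG _)))
      (Submodule.smul_mem_smul (m.mul_mem_left _ hc) (hG _))) (Submodule.smul_mem_smul hμ (hG _))
  obtain ⟨r, hr, hrG⟩ := Submodule.exists_sub_one_mem_and_smul_le_of_fg_of_le_sup
    (IsNoetherian.noetherian G) le_rfl hle
  have hrm : r ∉ m := fun h => hm.ne_top ((Ideal.eq_top_iff_one _).2 (by
    simpa using sub_mem h hr))
  set d := V 0 t₁ * V 1 t₂ - V 0 t₂ * V 1 t₁ with hd
  have key : ∀ a b, d ∣ r ^ 2 * (V 0 a * V 1 b - V 0 b * V 1 a) := fun a b => by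
    obtain ⟨x₁, x₂, e⟩ := Submodule.mem_span_pair.1
      (hrG (Submodule.smul_mem_pointwise_smul _ r _ (hG a)))
    obtain ⟨y₁, y₂, e'⟩ := Submodule.mem_span_pair.1
      (hrG (Submodule.smul_mem_pointwise_smul _ r _ (hG b)))
    have a0 := congrArg Prod.fst e
    have a1 := congrArg Prod.snd e
    have b0 := congrArg Prod.fst e'
    have b1 := congrArg Prod.snd e'
    simp only [gr, Prod.fst_add, Prod.snd_add, Prod.smul_fst, Prod.smul_snd, smul_eq_mul]
      at a0 a1 b0 b1
    refine ⟨x₁ * y₂ - x₂ * y₁, ?_⟩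
    have : r ^ 2 * (V 0 a * V 1 b - V 0 b * V 1 a) =
        (r * V 0 a) * (r * V 1 b) - (r * V 0 b) * (r * V 1 a) := by ring
    rw [this, ← a0, ← a1, ← b0, ← b1, hd]
    ring
  have hdv : ∀ i, d ∣ r ^ 2 * φ i := fun i => by
    rw [h3, Finset.mul_sum]
    exact Finset.dvd_sum fun j _ => by rw [mul_left_comm]; exact (key _ _).mul_left _
  have hr0 : r ≠ 0 := fun h => hrm (h ▸ m.zero_mem)
  have hd0 : d ≠ 0 := fun h => by
    have := hdv 0
    rw [h, zero_dvd_iff] at this
    exact mul_ne_zero (pow_ne_zero _ hr0) hφ this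
  obtain ⟨e, he⟩ := S2 _ _ hd0 hdv
  have hdm : d ∈ m := sub_mem (m.mul_mem_right _ (hV 0 _ ht₁)) (m.mul_mem_right _ (hV 0 _ ht₂))
  exact hrm (hm.isPrime.mem_of_pow_mem 2 (he ▸ m.mul_mem_right _ hdm))

/-- The integral closure of `P[1/H]` in `K`. -/
def AH (K : Type) [Field K] [Algebra P K] (H : P) : Subalgebra P K where
  carrier := {a | ∃ k : ℕ, IsIntegral P (H ^ k • a)}
  mul_mem' := by
    rintro a b ⟨s, ha⟩ ⟨t, hb⟩
    exact ⟨s + t, by rw [pow_add, ← smul_mul_smul_comm]; exact ha.mul hb⟩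
  add_mem' := by
    rintro a b ⟨s, ha⟩ ⟨t, hb⟩
    refine ⟨s + t, ?_⟩
    have : H ^ (s + t) • (a + b) = H ^ t • (H ^ s • a) + H ^ s • (H ^ t • b) := by
      rw [smul_add, smul_smul, smul_smul, ← pow_add, ← pow_add, add_comm t s]
    rw [this]; exact (ha.smul _).add (hb.smul _)
  algebraMap_mem' := fun p => ⟨0, by simpa using isIntegral_algebraMap⟩

variable {K : Type} [Field K] [Algebra ℂ K] [Algebra P K] [IsScalarTower ℂ P K]
  [Algebra F K] [IsScalarTower P F K] [FiniteDimensional F K] {H : P}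

omit [Algebra ℂ K] [IsScalarTower ℂ P K] [FiniteDimensional F K] in
theorem inj : Function.Injective (algebraMap P K) := by
  rw [IsScalarTower.algebraMap_eq P F K]
  exact (algebraMap F K).injective.comp (IsFractionRing.injective P F)

omit [Algebra ℂ K] [IsScalarTower ℂ P K] [FiniteDimensional F K] in
theorem map_ne {p : P} (hp : p ≠ 0) : algebraMap P K p ≠ 0 := (map_ne_zero_iff _ inj).2 hp

section
omit [Algebra ℂ K] [IsScalarTower ℂ P K] [Algebra F K] [IsScalarTower P F K]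
  [FiniteDimensional F K]

theorem mem_AH {a : K} : a ∈ AH K H ↔ ∃ k : ℕ, IsIntegral P (H ^ k • a) := Iff.rfl

theorem int_mem {a : K} (h : IsIntegral P a) : a ∈ AH K H := ⟨0, by simpa using h⟩

theorem AH_le (hH : H ∉ nn) : AH K H ≤ RR K := by
  rintro a ⟨k, h⟩
  exact ⟨H ^ k, fun h => hH (nn_max.isPrime.mem_of_pow_mem k h), h⟩

theorem inv_mem : (algebraMap P K H)⁻¹ ∈ AH K H := by
  refine ⟨1, ?_⟩
  rw [pow_one, Algebra.smul_def]
  by_cases h : algebraMap P K H = 0
  · rw [h, zero_mul]; exact isIntegral_zero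
  · rw [mul_inv_cancel₀ h]; exact isIntegral_one

theorem exists_H (s : Finset K) (hs : ∀ a ∈ s, a ∈ RR K) :
    ∃ H : P, H ∉ nn ∧ ∀ a ∈ s, IsIntegral P (H • a) := by
  classical
  induction s using Finset.induction_on with
  | empty => exact ⟨1, one_notMem_nn, by simp⟩
  | insert a s _ ih =>
    obtain ⟨H, h1, h2⟩ := ih fun b hb => hs b (Finset.mem_insert_of_mem hb)
    obtain ⟨t, h3, h4⟩ := hs a (Finset.mem_insert_self _ _)
    refine ⟨H * t, mul_notMem_nn h1 h3, fun b hb => ?_⟩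
    rcases Finset.mem_insert.1 hb with rfl | hb
    · rw [mul_smul]; exact h4.smul _
    · rw [mul_comm, mul_smul]; exact (h2 b hb).smul _

theorem dim_le (hH : algebraMap P K H ≠ 0) : ringKrullDim (AH K H) ≤ 2 := by
  have h1 : ringKrullDim P = 2 := by
    rw [MvPolynomial.ringKrullDim_of_isNoetherianRing, ringKrullDim_eq_zero_of_field]
    simp
  rw [← h1]
  refine Order.krullDim_le_of_strictMono (PrimeSpectrum.comap (algebraMap P (AH K H)))
    fun I J hIJ => ?_
  obtain ⟨hle, x, hxJ, hxI⟩ := SetLike.lt_iff_le_and_exists.mp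
    (show I.asIdeal < J.asIdeal from hIJ)
  obtain ⟨k, hk⟩ := x.2
  have hu : (⟨_, inv_mem⟩ : AH K H) ^ k * (H ^ k • x) = x := Subtype.ext (by
    simp only [Algebra.smul_def, MulMemClass.coe_mul, SubmonoidClass.coe_pow, map_pow,
      Subalgebra.coe_algebraMap]
    rw [← mul_assoc, ← mul_pow, inv_mul_cancel₀ hH, one_pow, one_mul])
  exact Ideal.comap_lt_comap_of_integral_mem_sdiff (R := P) hle (x := H ^ k • x)
    ⟨by rw [Algebra.smul_def]; exact J.asIdeal.mul_mem_left _ hxJ,
      fun h => hxI (hu ▸ I.asIdeal.mul_mem_left _ h)⟩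
    ((isIntegral_algHom_iff (AH K H).val Subtype.val_injective).1 hk)

theorem mem_of_int (hH : algebraMap P K H ≠ 0) {x : K} (hx : IsIntegral (AH K H) x) :
    x ∈ AH K H := by
  let L := Localization.Away H
  letI : Algebra L K := (IsLocalization.Away.lift H (g := algebraMap P K) hH.isUnit).toAlgebra
  haveI : IsScalarTower P L K := IsScalarTower.of_algebraMap_eq fun p =>
    (IsLocalization.Away.lift_eq H hH.isUnit p).symm
  have h1 : ∀ a ∈ AH K H, IsIntegral L a := by
    rintro a ⟨k, hk⟩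
    have := (hk.tower_top (A := L)).smul (IsLocalization.Away.invSelf (S := L) H ^ k)
    rwa [← algebraMap_smul L (H ^ k), smul_smul, map_pow, ← mul_pow, mul_comm,
      IsLocalization.Away.mul_invSelf, one_pow, one_smul] at this
  let φ : AH K H →+* integralClosure L K :=
    { toFun := fun a => ⟨a, h1 a a.2⟩
      map_one' := rfl
      map_mul' := fun _ _ => rfl
      map_zero' := rfl
      map_add' := fun _ _ => rfl }
  have h2 : IsIntegral (integralClosure L K) x := hx.map_of_comp_eq φ (RingHom.id K) rfl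
  obtain ⟨⟨_, k, rfl⟩, hk⟩ := (isIntegral_trans (R := L) x h2).exists_multiple_integral_of_isLocalization
    (Submonoid.powers H) x
  exact ⟨k, hk⟩

end

omit [Algebra ℂ K] [IsScalarTower ℂ P K] in
theorem intClosed (hH : algebraMap P K H ≠ 0) : IsIntegrallyClosed (AH K H) := by
  haveI : IsFractionRing (AH K H) K := IsFractionRing.of_field _ _ fun z => by
    obtain ⟨⟨p, hp⟩, h⟩ := IsIntegral.exists_multiple_integral_of_isLocalization
      (nonZeroDivisors P) z (Algebra.IsIntegral.isIntegral (R := F) z)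
    refine ⟨⟨_, int_mem h⟩, algebraMap P _ p, ?_⟩
    have := map_ne (K := K) (nonZeroDivisors.ne_zero hp)
    change z = (p • z) / algebraMap P K p
    rw [Algebra.smul_def]; field_simp
  exact (isIntegrallyClosed_iff K).2 fun hx => ⟨⟨_, mem_of_int hH hx⟩, rfl⟩

theorem exists_gen : ∃ G : Finset K, (∀ a ∈ G, IsIntegral P a) ∧
    ∀ a, IsIntegral P a → a ∈ Submodule.span P (G : Set K) := by
  haveI : CharZero F := algebraRat.charZero F
  haveI := IsIntegralClosure.finite P F K (integralClosure P K)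
  obtain ⟨G, hG⟩ := (Module.Finite.iff_fg (N := (integralClosure P K).toSubmodule)).1 this
  exact ⟨G, fun a ha => show a ∈ (integralClosure P K).toSubmodule from
    hG ▸ Submodule.subset_span ha, fun a ha => hG ▸ ha⟩

omit [Algebra ℂ K] [IsScalarTower ℂ P K] [Algebra F K] [IsScalarTower P F K]
  [FiniteDimensional F K] in
theorem AH_le_of (hH : algebraMap P K H ≠ 0) {G : Finset K}
    (hG : ∀ a, IsIntegral P a → a ∈ Submodule.span P (G : Set K)) (S : Subalgebra P K)
    (h1 : ∀ a ∈ G, a ∈ S) (h2 : (algebraMap P K H)⁻¹ ∈ S) : AH K H ≤ S := by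
  rintro a ⟨k, hk⟩
  have h3 : H ^ k • a ∈ S := (Submodule.span_le (p := S.toSubmodule)).2 h1 (hG _ hk)
  have : a = (algebraMap P K H)⁻¹ ^ k * (H ^ k • a) := by
    rw [Algebra.smul_def, map_pow, ← mul_assoc, ← mul_pow, inv_mul_cancel₀ hH, one_pow, one_mul]
  rw [this]
  exact mul_mem (pow_mem h2 k) h3

theorem finType (hH : algebraMap P K H ≠ 0) : Algebra.FiniteType ℂ (AH K H) := by
  classical
  obtain ⟨G, h1, h2⟩ := exists_gen (K := K)
  have : Algebra.FiniteType P (AH K H) := by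
    rw [← Subalgebra.fg_iff_finiteType]
    refine ⟨insert (algebraMap P K H)⁻¹ G, le_antisymm (Algebra.adjoin_le ?_)
      (AH_le_of hH h2 _ (fun a ha => Algebra.subset_adjoin (by simp [ha]))
        (Algebra.subset_adjoin (by simp)))⟩
    intro a ha
    rcases Finset.mem_insert.1 ha with rfl | ha
    · exact inv_mem
    · exact int_mem (h1 a ha)
  exact Algebra.FiniteType.trans (S := P) inferInstance this

theorem S2 {c : K} (k : ℕ) (h0 : algebraMap P K (X 0) ^ k * c ∈ AH K H)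
    (h1 : algebraMap P K (X 1) ^ k * c ∈ AH K H) : c ∈ AH K H := by
  obtain ⟨s, hs⟩ := h0
  obtain ⟨t, ht⟩ := h1
  refine ⟨s + t, isIntegral_of_pow_mul _ k ?_ ?_⟩
  · rw [mul_smul_comm, add_comm, pow_add, mul_smul]; exact hs.smul _
  · rw [mul_smul_comm, pow_add, mul_smul]; exact ht.smul _

omit [Algebra F K] [IsScalarTower P F K] [FiniteDimensional F K] in
theorem der_mem (hH : algebraMap P K H ≠ 0) {G : Finset K} (hG1 : ∀ a ∈ G, IsIntegral P a)
    (hG : ∀ a, IsIntegral P a → a ∈ Submodule.span P (G : Set K)) (D : Derivation ℂ K K)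
    (h1 : ∀ a ∈ G, D a ∈ AH K H) (h2 : ∀ i, D (algebraMap P K (X i)) ∈ AH K H) :
    ∀ a ∈ AH K H, D a ∈ AH K H := by
  have hP : ∀ p : P, D (algebraMap P K p) ∈ AH K H := fun p => by
    induction p using MvPolynomial.induction_on with
    | C c =>
      rw [← MvPolynomial.algebraMap_eq, ← IsScalarTower.algebraMap_apply, D.map_algebraMap]
      exact zero_mem _
    | add p q hp hq => rw [map_add, map_add]; exact add_mem hp hq
    | mul_X p i hp =>
      rw [map_mul, D.leibniz]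
      exact add_mem (mul_mem (algebraMap_mem _ _) (h2 i)) (mul_mem (algebraMap_mem _ _) hp)
  let S : Subalgebra P K :=
    { carrier := {a | a ∈ AH K H ∧ D a ∈ AH K H}
      mul_mem' := fun ha hb => ⟨mul_mem ha.1 hb.1, by
        rw [D.leibniz]; exact add_mem (mul_mem ha.1 hb.2) (mul_mem hb.1 ha.2)⟩
      add_mem' := fun ha hb => ⟨add_mem ha.1 hb.1, by rw [map_add]; exact add_mem ha.2 hb.2⟩
      algebraMap_mem' := fun p => ⟨algebraMap_mem _ p, hP p⟩ }
  refine fun a ha => (AH_le_of hH hG S (fun a ha => ⟨int_mem (hG1 a ha), h1 a ha⟩)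
    ⟨inv_mem, ?_⟩ ha).2
  rw [D.leibniz_inv, smul_eq_mul]
  exact mul_mem (neg_mem (pow_mem inv_mem 2)) (hP H)

/-- Restriction of a derivation to an invariant subalgebra. -/
noncomputable def restr (A : Subalgebra P K) (D : Derivation ℂ K K) (h : ∀ a ∈ A, D a ∈ A) :
    Derivation ℂ A A :=
  Derivation.mk'
    { toFun := fun a => ⟨D a, h a a.2⟩
      map_add' := fun a b => Subtype.ext (map_add D _ _)
      map_smul' := fun c a => Subtype.ext (D.map_smul c _) }
    fun a b => Subtype.ext (D.leibniz _ _)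

theorem jac_ne (v : Fin 2 → Derivation ℂ K K) {u w : K}
    (h : v 0 u * v 1 w - v 0 w * v 1 u ≠ 0) :
    v 0 (algebraMap P K (X 0)) * v 1 (algebraMap P K (X 1)) -
      v 0 (algebraMap P K (X 1)) * v 1 (algebraMap P K (X 0)) ≠ 0 := by
  intro h0
  have key : ∀ x : K, v 0 x * v 1 (algebraMap P K (X 0)) - v 1 x * v 0 (algebraMap P K (X 0)) = 0 →
      v 0 x * v 1 (algebraMap P K (X 1)) - v 1 x * v 0 (algebraMap P K (X 1)) = 0 →
      ∀ y, v 0 x * v 1 y - v 1 x * v 0 y = 0 := fun x h1 h2 y => by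
    have := der_eq_zero (A := K) (fun _ _ h => h) (v 0 x • v 1 - v 1 x • v 0)
      (by simpa using h1) (by simpa using h2)
    simpa using congrArg (fun D : Derivation ℂ K K => D y) this
  have k0 := key (algebraMap P K (X 0)) (by ring) (by linear_combination h0) u
  have k1 := key (algebraMap P K (X 1)) (by linear_combination -h0) (by ring) u
  exact h (by linear_combination key u (by linear_combination -k0) (by linear_combination -k1) w)

end C

open C

variable {K : Type} [Field K] [Algebra ℂ K] [Algebra P K] [IsScalarTower ℂ P K]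
  [Algebra F K] [IsScalarTower P F K] [FiniteDimensional F K]

theorem goal_of (v : Fin 2 → Derivation ℂ K K)
    (h1 : ∀ i, ∀ a ∈ RR K, v i a ∈ RR K)
    (h2 : ∀ i, ∀ M : Ideal (RR K), M.IsMaximal → ∀ a ∈ M, (⟨v i a, h1 i a a.2⟩ : RR K) ∈ M)
    (N : ℕ) (u w : Fin 3 → K) (c : Fin 2 → Fin 3 → K)
    (hu : ∀ j, u j ∈ RR K) (hw : ∀ j, w j ∈ RR K) (hc : ∀ i j, c i j ∈ RR K)
    (h3 : ∀ i, algebraMap P K (X i) ^ N =
      ∑ j, c i j * (v 0 (u j) * v 1 (w j) - v 0 (w j) * v 1 (u j))) : Goal := by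
  classical
  obtain ⟨G, hG1, hG2⟩ := exists_gen (K := K)
  obtain ⟨H, hH, hint⟩ := exists_H
    ((Finset.univ ×ˢ G).image (fun x : Fin 2 × K => v x.1 x.2) ∪
      Finset.univ.image (fun x : Fin 2 × Fin 2 => v x.1 (algebraMap P K (X x.2))) ∪
      Finset.univ.image u ∪ Finset.univ.image w ∪
      Finset.univ.image (fun x : Fin 2 × Fin 3 => c x.1 x.2)) (by
      simp only [Finset.mem_union, Finset.mem_image, Finset.mem_product, Finset.mem_univ, true_and]
      rintro _ ((((⟨x, hx, rfl⟩ | ⟨x, rfl⟩) | ⟨j, rfl⟩) | ⟨j, rfl⟩) | ⟨x, rfl⟩)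
      · exact h1 _ _ ⟨1, one_notMem_nn, by simpa using hG1 _ hx⟩
      · exact h1 _ _ (algebraMap_mem _ _)
      · exact hu j
      · exact hw j
      · exact hc _ _)
  simp only [Finset.mem_union, Finset.mem_image, Finset.mem_product, Finset.mem_univ,
    true_and] at hint
  have hmem : ∀ a : K, IsIntegral P (H • a) → a ∈ AH K H := fun a ha => ⟨1, by rwa [pow_one]⟩
  have hH0 : algebraMap P K H ≠ 0 := map_ne fun h => hH (h ▸ nn.zero_mem)
  have hv : ∀ i, ∀ a ∈ AH K H, v i a ∈ AH K H := fun i => der_mem hH0 hG1 hG2 (v i)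
    (fun a ha => hmem _ (hint _ (.inl (.inl (.inl (.inl ⟨(i, a), ha, rfl⟩))))))
    (fun j => hmem _ (hint _ (.inl (.inl (.inl (.inr ⟨(i, j), rfl⟩))))))
  have hu' : ∀ j, u j ∈ AH K H := fun j => hmem _ (hint _ (.inl (.inl (.inr ⟨j, rfl⟩))))
  have hw' : ∀ j, w j ∈ AH K H := fun j => hmem _ (hint _ (.inl (.inr ⟨j, rfl⟩)))
  have hc' : ∀ i j, c i j ∈ AH K H := fun i j => hmem _ (hint _ (.inr ⟨(i, j), rfl⟩))
  clear hint
  set A := AH K H with hA
  let V : Fin 2 → Derivation ℂ A A := fun i => restr A (v i) (hv i)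
  have hV : ∀ i a, (V i a : K) = v i a := fun i a => rfl
  have hX : ∀ i, algebraMap P K (X i) ≠ 0 := fun i => map_ne (X_ne_zero i)
  obtain ⟨j₀, hj₀⟩ : ∃ j, v 0 (u j) * v 1 (w j) - v 0 (w j) * v 1 (u j) ≠ 0 := by
    by_contra! h
    exact pow_ne_zero N (hX 0) (by rw [h3]; simp [h])
  have hΔ := jac_ne v hj₀
  haveI hft := finType hH0
  haveI : IsNoetherianRing A := Algebra.FiniteType.isNoetherianRing ℂ A
  obtain ⟨M, hM⟩ := Ideal.exists_maximal (RR K)
  have hXM := X_mem_of_isMaximal (RR K) le_rfl inv_mem_RR M hM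
  let ι : A →ₐ[P] RR K := Subalgebra.inclusion (AH_le hH)
  let m : Ideal A := M.comap ι
  have hXm : ∀ i, algebraMap P A (X i) ∈ m := fun i => hXM i
  haveI hm : m.IsMaximal := isMaximal_of_X_mem A (AH_le hH) m
    (Ideal.comap_isPrime ι M (H := hM.isPrime)) (hXm 0) (hXm 1)
  have hS2 : ∀ (k : ℕ) (r d : A), d ≠ 0 → (∀ i, d ∣ r * algebraMap P A (X i) ^ k) → d ∣ r :=
    fun k r d hd h => by
      have hd' : (d : K) ≠ 0 := fun h => hd (Subtype.ext h)
      have key : ∀ i, algebraMap P K (X i) ^ k * ((r : K) / d) ∈ A := fun i => by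
        obtain ⟨e, he⟩ := h i
        have he' : (r : K) * algebraMap P K (X i) ^ k = d * e := congrArg Subtype.val he
        have : algebraMap P K (X i) ^ k * ((r : K) / d) = e := by
          field_simp; linear_combination he'
        rw [this]; exact e.2
      refine ⟨⟨_, S2 k (key 0) (key 1)⟩, Subtype.ext ?_⟩
      change (r : K) = d * (r / d)
      field_simp
  have hXA : ∀ i, algebraMap P A (X i) ≠ 0 := fun i h => hX i (congrArg Subtype.val h)
  refine ⟨A, inferInstance, inferInstance, inferInstance, hft, intClosed hH0,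
    le_antisymm (dim_le hH0) ?_, ⟨?_⟩, m, hm, ?_⟩
  · obtain ⟨q, hq, hqm⟩ := Ideal.exists_minimalPrimes_le (J := m)
      ((Ideal.span_singleton_le_iff_mem _).2 (hXm 0))
    have hfq : algebraMap P A (X 0) ∈ q := hq.1.2 (Ideal.mem_span_singleton_self _)
    have hgq : algebraMap P A (X 1) ∉ q := fun h => by
      obtain ⟨y, hy, hy'⟩ := Ideal.exists_mul_mem_of_mem_minimalPrimes hq h
      rw [Ideal.mem_span_singleton] at hy hy'
      refine hy (hS2 1 y _ (hXA 0) fun i => ?_)
      fin_cases i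
      · simp
      · simpa [mul_comm] using hy'
    let p0 : PrimeSpectrum A := ⟨⊥, Ideal.isPrime_bot⟩
    let p1 : PrimeSpectrum A := ⟨q, hq.1.1⟩
    let p2 : PrimeSpectrum A := ⟨m, hm.isPrime⟩
    have l1 : p0 < p1 := show (⊥ : Ideal A) < q from
      bot_lt_iff_ne_bot.2 fun h => hXA 0 (by simpa [h] using hfq)
    have l2 : p1 < p2 := show q < m from lt_of_le_of_ne hqm fun h => hgq (h ▸ hXm 1)
    exact Order.LTSeries.length_le_krullDim (LTSeries.mk 2 ![p0, p1, p2]
      (Fin.strictMono_iff_lt_succ.2 fun i => by fin_cases i; exacts [l1, l2]))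
  · let Φ : (Fin 2 → A) →ₗ[A] Derivation ℂ A A := Fintype.linearCombination A V
    have hΦ : ∀ a x, (Φ a x : K) = a 0 * v 0 x + a 1 * v 1 x := fun a x => by
      simp [Φ, Fintype.linearCombination_apply, hV]
    refine (LinearEquiv.ofBijective Φ ⟨(injective_iff_map_eq_zero Φ).2 fun a ha => ?_,
      fun D => ?_⟩).symm
    · have e0 := hΦ a (algebraMap P A (X 0))
      have e1 := hΦ a (algebraMap P A (X 1))
      rw [ha] at e0 e1
      simp only [Derivation.coe_zero, Pi.zero_apply, ZeroMemClass.coe_zero,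
        Subalgebra.coe_algebraMap] at e0 e1
      ext i
      refine (mul_eq_zero_iff_right hΔ).1 ?_
      fin_cases i
      · simp only [Fin.zero_eta]
        linear_combination v 1 (algebraMap P K (X 0)) * e1 - v 1 (algebraMap P K (X 1)) * e0
      · simp only [Fin.mk_one]
        linear_combination v 0 (algebraMap P K (X 1)) * e0 - v 0 (algebraMap P K (X 0)) * e1
    · set α : K := ↑(D (algebraMap P A (X 0)))
      set β : K := ↑(D (algebraMap P A (X 1)))
      set f := algebraMap P K (X 0)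
      set g := algebraMap P K (X 1)
      set Δ := v 0 f * v 1 g - v 0 g * v 1 f with hΔe
      set a₀ := (α * v 1 g - β * v 1 f) / Δ with ha₀
      set a₁ := (β * v 0 f - α * v 0 g) / Δ with ha₁
      have hδ := der_eq_zero (A := A) Subtype.val_injective
        ((Algebra.linearMap A K).compDer D - (a₀ • v 0 + a₁ • v 1).compAlgebraMap A)
        (by
          change α - (a₀ * v 0 f + a₁ * v 1 f) = 0
          rw [ha₀, ha₁]; field_simp; rw [hΔe]; ring)
        (by
          change β - (a₀ * v 0 g + a₁ * v 1 g) = 0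
          rw [ha₀, ha₁]; field_simp; rw [hΔe]; ring)
      have hD : ∀ x : A, (D x : K) = a₀ * v 0 x + a₁ * v 1 x := fun x =>
        sub_eq_zero.1 (congrArg (fun E : Derivation ℂ A K => E x) hδ)
      have k0 : ∀ i, algebraMap P K (X i) ^ N * a₀ ∈ A := fun i => by
        rw [h3, Finset.sum_mul]
        refine sum_mem fun j _ => ?_
        have : c i j * (v 0 (u j) * v 1 (w j) - v 0 (w j) * v 1 (u j)) * a₀ =
            c i j * (D ⟨_, hu' j⟩ * v 1 (w j) - D ⟨_, hw' j⟩ * v 1 (u j)) := by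
          rw [hD, hD]; ring
        rw [this]
        exact mul_mem (hc' i j) (sub_mem (mul_mem (D _).2 (hv _ _ (hw' j)))
          (mul_mem (D _).2 (hv _ _ (hu' j))))
      have k1 : ∀ i, algebraMap P K (X i) ^ N * a₁ ∈ A := fun i => by
        rw [h3, Finset.sum_mul]
        refine sum_mem fun j _ => ?_
        have : c i j * (v 0 (u j) * v 1 (w j) - v 0 (w j) * v 1 (u j)) * a₁ =
            c i j * (D ⟨_, hw' j⟩ * v 0 (u j) - D ⟨_, hu' j⟩ * v 0 (w j)) := by
          rw [hD, hD]; ring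
        rw [this]
        exact mul_mem (hc' i j) (sub_mem (mul_mem (D _).2 (hv _ _ (hu' j)))
          (mul_mem (D _).2 (hv _ _ (hw' j))))
      refine ⟨![⟨a₀, S2 N (k0 0) (k0 1)⟩, ⟨a₁, S2 N (k1 0) (k1 1)⟩], ?_⟩
      ext x
      rw [hΦ, hD]
      rfl
  · refine not_regular V m (dim_le hH0) (fun a => ?_) (fun i a ha => h2 i M hM (ι a) ha)
      (fun i => algebraMap P A (X i) ^ N) (pow_ne_zero _ (hXA 0)) (fun j => ⟨_, hu' j⟩)
      (fun j => ⟨_, hw' j⟩) (fun i j => ⟨_, hc' i j⟩) (fun i => Subtype.ext ?_) (hS2 N)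
    · letI := Ideal.Quotient.field m
      haveI := finite_of_finite_type_of_isJacobsonRing ℂ (A ⧸ m)
      obtain ⟨z, hz⟩ := (IsAlgClosed.algebraMap_bijective_of_isIntegral (k := ℂ)
        (K := A ⧸ m)).2 (Ideal.Quotient.mk m a)
      exact ⟨z, Ideal.Quotient.eq.1 hz.symm⟩
    · simpa [hV] using h3 i

end Crest.Agent.R278
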