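import Crest.Agent.R278.Defs

/-! 278-A: a point over a finite extension of `ℂ(f,g)` from a smooth point mod `p`. -/

set_option autoImplicit false
namespace Crest.Agent.R278
open MvPolynomial Finset

namespace A

abbrev R0 : Type := MvPolynomial (Fin 2) ℤ

theorem hom_aeval {σ A B : Type*} [CommRing A] [CommRing B] [Algebra ℤ A] [Algebra ℤ B]
    (g : A →+* B) (y : σ → A) (f : MvPolynomial σ ℤ) :
    g (aeval y f) = aeval (fun i => g (y i)) f := by
  rw [map_aeval, aeval_eq_eval₂Hom, RingHom.ext_int (g.comp (algebraMap ℤ A)) (algebraMap ℤ B)]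

theorem taylor {σ R A : Type*} [Fintype σ] [DecidableEq σ] [CommRing R] [CommRing A] [Algebra R A]
    (I : Ideal A) (y h : σ → A) (hI : ∀ u, h u ∈ I) (f : MvPolynomial σ R) :
    aeval (y + h) f - aeval y f - ∑ u, aeval y (pderiv u f) * h u ∈ I * I := by
  induction f using MvPolynomial.induction_on with
  | C c => simp
  | add f g hf hg =>
    convert add_mem hf hg using 1
    simp only [map_add, add_mul, sum_add_distrib]
    ring
  | mul_X f i hf =>
    have h1 : ∑ u, aeval y (pderiv u f) * h u ∈ I := sum_mem fun u _ => I.mul_mem_left _ (hI u)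
    have e1 : ∀ u, aeval y (pderiv u (f * X i)) * h u =
        aeval y (pderiv u f) * h u * y i + if u = i then aeval y f * h i else 0 := fun u => by
      rw [Derivation.leibniz, smul_eq_mul, smul_eq_mul, map_add, map_mul, map_mul, aeval_X]
      split_ifs with hu
      · rw [hu, pderiv_X_self, map_one]; ring
      · rw [pderiv_X_of_ne (Ne.symm hu), map_zero]; ring
    have e : ∑ u, aeval y (pderiv u (f * X i)) * h u =
        (∑ u, aeval y (pderiv u f) * h u) * y i + aeval y f * h i := by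
      simp only [e1, sum_add_distrib, sum_mul, sum_ite_eq', mem_univ, if_true]
    convert add_mem (Ideal.mul_mem_right (y i + h i) _ hf) (Ideal.mul_mem_mul h1 (hI i)) using 1
    rw [e]
    simp only [map_mul, aeval_X, Pi.add_apply]
    ring

theorem newton (n : ℕ) (ρ : ℕ → PZ) (φ : ℕ → ℕ → PZ)
    (hφ : ∀ l < n, ∑ k ∈ range n, ρ k * φ k l = 0)
    (p : ℕ) (y0 : Fin 8 → ℤ) (N : Fin 8 → ℕ → ℤ) (N' : ℕ → ℕ → ℤ)
    (hN0 : ∀ k, N 0 k = 0) (hN1 : ∀ k, N 1 k = 0)
    (h0 : ∀ j < n, (p : ℤ) ∣ aeval y0 (ρ j))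
    (h1 : ∀ j < n, ∀ k < n, (p : ℤ) ∣ ∑ u : Fin 8, aeval y0 (pderiv u (ρ j)) * N u k
      + ∑ l ∈ range n, N' j l * aeval y0 (φ k l) - if j = k then 1 else 0)
    (ev : R0 →+* ZMod p) (e0 : ev (X 0) = y0 0) (e1 : ev (X 1) = y0 1) (t : ℕ) :
    ∃ y : Fin 8 → R0, y 0 = X 0 ∧ y 1 = X 1 ∧ (∀ u, ev (y u) = y0 u) ∧
      ∀ j < n, aeval y (ρ j) ∈ RingHom.ker ev ^ (t + 1) := by
  have key : ∀ y : Fin 8 → R0, (∀ u, ev (y u) = y0 u) → ∀ f : PZ,
      ev (aeval y f) = ((aeval y0 f : ℤ) : ZMod p) := fun y hy f => by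
    rw [hom_aeval, ← eq_intCast (Int.castRingHom (ZMod p)), hom_aeval]
    simp only [hy, eq_intCast]
  induction t with
  | zero =>
    let y : Fin 8 → R0 := fun u => if u = 0 then X 0 else if u = 1 then X 1 else (y0 u : R0)
    have hy : ∀ u, ev (y u) = y0 u := fun u => by
      simp only [y]
      split_ifs with a b
      · rw [a, e0]
      · rw [b, e1]
      · simp
    refine ⟨y, by simp [y], by simp [y], hy, fun j hj => ?_⟩
    rw [zero_add, pow_one, RingHom.mem_ker, key y hy]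
    exact (ZMod.intCast_zmod_eq_zero_iff_dvd _ _).2 (h0 j hj)
  | succ t ih =>
    obtain ⟨y, a0, a1, hy, hρ⟩ := ih
    set m := RingHom.ker ev with hm
    let h : Fin 8 → R0 := fun u => -∑ k ∈ range n, (N u k : R0) * aeval y (ρ k)
    have hI : ∀ u, h u ∈ m ^ (t + 1) := fun u =>
      neg_mem (sum_mem fun k hk => Ideal.mul_mem_left _ _ (hρ k (mem_range.1 hk)))
    have hle : m ^ (t + 1) ≤ m := Ideal.pow_le_self t.succ_ne_zero
    refine ⟨y + h, by simp [h, hN0, a0], by simp [h, hN1, a1], fun u => ?_, fun j hj => ?_⟩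
    · rw [Pi.add_apply, map_add, hy, (RingHom.mem_ker.1 (hle (hI u))), add_zero]
    · have b1 : m ^ (t + 1) * m ^ (t + 1) ≤ m ^ (t + 1 + 1) := by
        rw [pow_succ m (t + 1)]; exact Ideal.mul_mono_right hle
      have b2 := b1 (taylor _ y h hI (ρ j))
      let μ : ℕ → R0 := fun k => ∑ u, aeval y (pderiv u (ρ j)) * (N u k : R0) +
        ∑ l ∈ range n, (N' j l : R0) * aeval y (φ k l) - if j = k then 1 else 0
      have b3 : ∀ k < n, μ k ∈ m := fun k hk => by
        have := (ZMod.intCast_zmod_eq_zero_iff_dvd _ _).2 (h1 j hj k hk)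
        rw [hm, RingHom.mem_ker, ← this]
        simp only [μ, map_sub, map_add, map_sum, map_mul, key y hy, map_intCast]
        push_cast
        split_ifs <;> simp
      have b4 : ∑ k ∈ range n, aeval y (ρ k) * μ k ∈ m ^ (t + 1 + 1) := sum_mem fun k hk => by
        rw [pow_succ m (t + 1)]
        exact Ideal.mul_mem_mul (hρ k (mem_range.1 hk)) (b3 k (mem_range.1 hk))
      have b5 : ∑ k ∈ range n, aeval y (ρ k) * ∑ l ∈ range n, (N' j l : R0) * aeval y (φ k l) =
          0 := by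
        simp only [mul_sum]
        rw [sum_comm]
        refine sum_eq_zero fun l hl => ?_
        have := congrArg (aeval y) (hφ l (mem_range.1 hl))
        simp only [map_sum, map_mul, map_zero] at this
        simp only [mul_left_comm _ (N' j l : R0), ← mul_sum, this, mul_zero]
      have b6 : ∑ k ∈ range n, aeval y (ρ k) * μ k =
          -∑ u, aeval y (pderiv u (ρ j)) * h u - aeval y (ρ j) := by
        simp only [μ, h, mul_sub, mul_add, sum_sub_distrib, sum_add_distrib, b5, add_zero, mul_neg,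
          sum_neg_distrib, neg_neg, mul_ite, mul_one, mul_zero, sum_ite_eq, mem_range, hj, if_true]
        congr 1
        simp only [mul_sum]
        rw [sum_comm]
        exact sum_congr rfl fun u _ => sum_congr rfl fun k _ => by ring
      convert sub_mem b2 b4 using 1
      rw [b6]
      ring

/-- the inclusion of the first two variables -/
noncomputable def inc : R0 →ₐ[ℤ] PZ := aeval ![X 0, X 1]

theorem of_point (n : ℕ) (ρ : ℕ → PZ) {T : Type} [CommRing T] [Nontrivial T] [Algebra F T]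
    (r : PZ →+* T) (hX : ∀ i : Fin 2, r (inc (X i)) = algebraMap F T (algebraMap P F (X i)))
    (hρ : ∀ j < n, r (ρ j) = 0) :
    ∃ (K : Type) (_ : Field K) (_ : Algebra ℂ K) (_ : Algebra P K) (_ : IsScalarTower ℂ P K)
      (_ : Algebra F K) (_ : IsScalarTower P F K) (_ : FiniteDimensional F K) (y : Fin 8 → K),
      y 0 = algebraMap P K (X 0) ∧ y 1 = algebraMap P K (X 1) ∧
      (∀ j < n, aeval y (ρ j) = 0) ∧ Algebra.adjoin F (Set.range y) = ⊤ := by
  let Φ : MvPolynomial (Fin 8) F →ₐ[F] T := aeval fun u => r (X u)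
  obtain ⟨M, hM, hle⟩ := Ideal.exists_le_maximal (RingHom.ker Φ) (RingHom.ker_ne_top Φ)
  let _ := Ideal.Quotient.field M
  have hy : ∀ (u : Fin 8) (i : Fin 2), inc (X i) = X u →
      Ideal.Quotient.mk M (X u) = algebraMap P (MvPolynomial (Fin 8) F ⧸ M) (X i) :=
    fun u i h => Ideal.Quotient.eq.2 (hle (by
      change Φ (X u - C (algebraMap P F (X i))) = 0
      rw [map_sub, algHom_C, ← hX, h, aeval_X, sub_self]))
  refine ⟨MvPolynomial (Fin 8) F ⧸ M, inferInstance, inferInstance, inferInstance, inferInstance,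
    inferInstance, inferInstance, finite_of_finite_type_of_isJacobsonRing _ _,
    fun u => Ideal.Quotient.mk M (X u), hy 0 0 (by simp [inc]), hy 1 1 (by simp [inc]),
    fun j hj => ?_, ?_⟩
  · refine (@hom_aeval _ _ _ _ _ _ (Ring.toIntAlgebra _) (Ideal.Quotient.mk M) X (ρ j)).symm.trans
      (Ideal.Quotient.eq_zero_iff_mem.2 (hle ?_))
    refine (hom_aeval Φ.toRingHom X (ρ j)).trans ?_
    have e : (fun i => Φ.toRingHom (X i)) = fun i => r (X i) := funext fun i => aeval_X _ i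
    rw [e, ← hom_aeval r X (ρ j), aeval_X_left_apply, hρ j hj]
  · rw [Algebra.adjoin_range_eq_range_aeval, AlgHom.range_eq_top]
    have : (aeval fun u => Ideal.Quotient.mk M (X u) : _ →ₐ[F] _) = Ideal.Quotient.mkₐ F M :=
      algHom_ext fun u => by simp
    rw [this]
    exact Ideal.Quotient.mkₐ_surjective F M

end A

open A in
theorem exists_point (n : ℕ) (ρ : ℕ → PZ) (φ : ℕ → ℕ → PZ)
    (hφ : ∀ l < n, ∑ k ∈ range n, ρ k * φ k l = 0)
    (p : ℕ) (hp : p.Prime) (y0 : Fin 8 → ℤ) (N : Fin 8 → ℕ → ℤ) (N' : ℕ → ℕ → ℤ)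
    (hN0 : ∀ k, N 0 k = 0) (hN1 : ∀ k, N 1 k = 0)
    (h0 : ∀ j < n, (p : ℤ) ∣ aeval y0 (ρ j))
    (h1 : ∀ j < n, ∀ k < n, (p : ℤ) ∣ ∑ u : Fin 8, aeval y0 (pderiv u (ρ j)) * N u k
      + ∑ l ∈ range n, N' j l * aeval y0 (φ k l) - if j = k then 1 else 0) :
    ∃ (K : Type) (_ : Field K) (_ : Algebra ℂ K) (_ : Algebra P K) (_ : IsScalarTower ℂ P K)
      (_ : Algebra F K) (_ : IsScalarTower P F K) (_ : FiniteDimensional F K) (y : Fin 8 → K),
      y 0 = algebraMap P K (X 0) ∧ y 1 = algebraMap P K (X 1) ∧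
      (∀ j < n, aeval y (ρ j) = 0) ∧ Algebra.adjoin F (Set.range y) = ⊤ := by
  have := Fact.mk hp
  let ev : R0 →+* ZMod p := eval₂Hom (Int.castRingHom _) ![y0 0, y0 1]
  let J : Ideal PZ := Ideal.span (ρ '' {j | j < n})
  have hinj : ∀ a : R0, inc a ∈ J → a = 0 := fun a ha => by
    rw [← Ideal.mem_bot, ← Ideal.iInf_pow_eq_bot_of_isDomain (RingHom.ker ev)
      (RingHom.ker_ne_top ev), Ideal.mem_iInf]
    intro t
    obtain ⟨y, a0, a1, -, hy⟩ := newton n ρ φ hφ p y0 N N' hN0 hN1 h0 h1 ev (by simp [ev])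
      (by simp [ev]) t
    have e : (aeval y).comp inc = AlgHom.id ℤ R0 := algHom_ext fun i => by
      fin_cases i <;> simp [inc, a0, a1]
    have h2 : J ≤ (RingHom.ker ev ^ (t + 1)).comap (aeval y : PZ →ₐ[ℤ] R0) :=
      Ideal.span_le.2 (by rintro _ ⟨j, hj, rfl⟩; exact hy j hj)
    have h3 : aeval y (inc a) = a := DFunLike.congr_fun e a
    exact Ideal.pow_le_pow_right t.le_succ (h3 ▸ h2 ha)
  obtain ⟨Q, hQ, hJQ, hd⟩ := Ideal.exists_le_prime_disjoint J ((nonZeroDivisors R0).map inc)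
    (Set.disjoint_left.2 (by
      rintro _ h ⟨a, ha, rfl⟩
      exact nonZeroDivisors.ne_zero ha (hinj a h)))
  let ψ : R0 →+* PZ ⧸ Q := (Ideal.Quotient.mk Q).comp inc
  let χ : R0 →+* F := (algebraMap P F).comp (map (Int.castRingHom ℂ))
  have hψ : Function.Injective ψ := (injective_iff_map_eq_zero _).2 fun a ha => by
    by_contra h
    exact Set.disjoint_left.1 hd (Ideal.Quotient.eq_zero_iff_mem.1 ha)
      ⟨a, mem_nonZeroDivisors_of_ne_zero h, rfl⟩
  have hχ : Function.Injective χ :=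
    (IsFractionRing.injective P F).comp (map_injective _ Int.cast_injective)
  let _ := ψ.toAlgebra
  let _ := χ.toAlgebra
  have := Algebra.TensorProduct.nontrivial_of_algebraMap_injective_of_isDomain R0 F (PZ ⧸ Q) hχ hψ
  let r : PZ →+* TensorProduct R0 F (PZ ⧸ Q) :=
    (Algebra.TensorProduct.includeRight : _ →ₐ[R0] _).toRingHom.comp (Ideal.Quotient.mk Q)
  have hX : ∀ i : Fin 2, r (inc (X i)) = algebraMap F _ (algebraMap P F (X i)) := fun i => by
    have e1 : algebraMap P F (X i) = algebraMap R0 F (X i) := by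
      change _ = χ (X i)
      simp [χ]
    rw [e1, ← IsScalarTower.algebraMap_apply]
    exact (Algebra.TensorProduct.includeRight : _ →ₐ[R0] _).commutes (X i)
  refine of_point n ρ (T := TensorProduct R0 F (PZ ⧸ Q)) r hX fun j hj => ?_
  simp only [r, RingHom.comp_apply]
  rw [Ideal.Quotient.eq_zero_iff_mem.2 (hJQ (Ideal.subset_span ⟨j, hj, rfl⟩)), map_zero]

end Crest.Agent.R278
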