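import Crest.Agent.R278.S0
import Crest.Agent.R278.Fin
import Crest.Agent.R278.Pt

/-! Assembly. -/

set_option autoImplicit false
set_option linter.unusedSectionVars false
namespace Crest.Agent.R278
open MvPolynomial Matrix

variable {K : Type} [Field K] [Algebra ℂ K] [Algebra P K] [IsScalarTower ℂ P K]
  [Algebra F K] [IsScalarTower P F K] [FiniteDimensional F K]

lemma ev_mem (T : Subalgebra P K) {f g : K} (hf : f ∈ T) (hg : g ∈ T) (l : TL) : ev f g l ∈ T := by
  induction l with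
  | nil => exact T.zero_mem
  | cons t l ih =>
    exact T.add_mem (T.mul_mem (T.mul_mem (intCast_mem T _) (T.pow_mem hf _)) (T.pow_mem hg _)) ih

lemma pair_mem' (T : Subalgebra P K) {f g : K} (hf : f ∈ T) (hg : g ∈ T) (L : List TL)
    (es : List K) (h : ∀ e ∈ es, e ∈ T) : pair f g L es ∈ T := by
  induction L generalizing es with
  | nil => exact T.zero_mem
  | cons l L ih => cases es with
    | nil => exact T.zero_mem
    | cons e es =>
      exact T.add_mem (T.mul_mem (ev_mem T hf hg l) (h e (by simp)))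
        (ih es fun e he => h e (by simp [he]))

lemma m0_map {A A' : Type*} [CommRing A] [CommRing A'] (π : A →+* A') (y : Fin 8 → A) {x : A}
    (h : x ∈ m0 y) : π x ∈ m0 (π ∘ y) := by
  have := Ideal.mem_map_of_mem π h
  simpa only [m0, Ideal.map_sup, Ideal.map_span, Set.image_insert_eq, Set.image_singleton,
    Function.comp] using this

variable {y : Fin 8 → K} (h0 : y 0 = algebraMap P K (X 0)) (h1 : y 1 = algebraMap P K (X 1))
  (hy : ∀ j < 14, rhoA y j = 0)
include h0 h1 hy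

lemma z_aux (B : Subalgebra P K) (h2 : y 2 ∈ B) (h3 : y 3 ∈ B) (h4 : y 4 ∈ B) (k : Fin 8)
    (hk : 5 ≤ k) (i : Fin 2) : (1 * X i ^ 3 : P) • y k ∈ B := by
  have hf : y 0 ∈ B := h0 ▸ B.algebraMap_mem _
  have hg : y 1 ∈ B := h1 ▸ B.algebraMap_mem _
  have key : ∀ j < 14, pair (y 0) (y 1) (mL.getD j []) (zm12 y) ∈ B := fun j hj => by
    have := hy j hj
    rw [rhoA_eq y j hj, add_comm, add_eq_zero_iff_eq_neg] at this
    rw [this]
    refine B.neg_mem (pair_mem' B hf hg _ _ ?_)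
    simp only [xm10, List.mem_cons, List.not_mem_nil, or_false, forall_eq_or_imp, forall_eq]
    exact ⟨B.one_mem, h2, h3, h4, B.mul_mem h2 h2, B.mul_mem h2 h3, B.mul_mem h2 h4,
      B.mul_mem h3 h3, B.mul_mem h3 h4, B.mul_mem h4 h4⟩
  have c : ∀ (n : ℤ) (x : K), n ≠ 0 → (n : K) * x ∈ B → x ∈ B := fun n x hn h =>
    mem_of_int_mul' (N := B.toSubmodule) hn h
  have a0 := key 0 (by norm_num)
  have a1 := key 1 (by norm_num)
  have a2 := key 2 (by norm_num)
  have a3 := key 3 (by norm_num)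
  have a4 := key 4 (by norm_num)
  simp [mL, zm12, tp] at a0 a1 a2 a3 a4
  have b0 : y 0 * y 5 ∈ B := c 27 _ (by norm_num) (by convert a0 using 1; push_cast; ring)
  have b1 : y 1 * y 6 ∈ B := c 27 _ (by norm_num) (by convert a1 using 1; push_cast; ring)
  have b2 : y 0 ^ 2 * y 7 ∈ B := c 162 _ (by norm_num) (by convert a2 using 1; push_cast; ring)
  have b3 : y 1 ^ 2 * y 7 ∈ B := c 162 _ (by norm_num) (by convert a3 using 1; push_cast; ring)
  have b4 : y 1 ^ 2 * y 5 + y 0 ^ 2 * y 6 ∈ B :=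
    c 4069764 _ (by norm_num) (by convert a4 using 1; push_cast; ring)
  rw [one_mul, Algebra.smul_def, map_pow]
  have hk' : k = 5 ∨ k = 6 ∨ k = 7 := by omega
  fin_cases i <;> simp only [Fin.zero_eta, Fin.mk_one, ← h0, ← h1] <;>
    rcases hk' with rfl | rfl | rfl
  · convert B.mul_mem (B.pow_mem hf 2) b0 using 1; ring
  · convert B.sub_mem (B.mul_mem hf b4) (B.mul_mem (B.pow_mem hg 2) b0) using 1; ring
  · convert B.mul_mem hf b2 using 1; ring
  · convert B.sub_mem (B.mul_mem hg b4) (B.mul_mem (B.pow_mem hf 2) b1) using 1; ring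
  · convert B.mul_mem (B.pow_mem hg 2) b1 using 1; ring
  · convert B.mul_mem hg b3 using 1; ring

theorem goal_of_point (hgen : Algebra.adjoin F (Set.range y) = ⊤) : Goal := by
  classical
  obtain ⟨x1, x2, x3⟩ := x_mem_RR h0 h1 hy
  set Y : Finset K := {y 2, y 3, y 4} with hY
  have hYR : ∀ x ∈ Y, x ∈ RR K := by simp [hY, x1, x2, x3]
  set B := Algebra.adjoin P (Y : Set K) with hB
  have hBR : B ≤ RR K := Algebra.adjoin_le hYR
  have y2 : y 2 ∈ B := Algebra.subset_adjoin (by simp [hY])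
  have y3 : y 3 ∈ B := Algebra.subset_adjoin (by simp [hY])
  have y4 : y 4 ∈ B := Algebra.subset_adjoin (by simp [hY])
  have hz := z_aux h0 h1 hy B y2 y3 y4
  have hyT : ∀ i, y i ∈ S0 B := fun i => by
    by_cases hi : 5 ≤ i
    · exact ⟨1, one_notMem_nn, 3, hz i hi⟩
    · have : i = 0 ∨ i = 1 ∨ i = 2 ∨ i = 3 ∨ i = 4 := by omega
      rcases this with rfl | rfl | rfl | rfl | rfl
      exacts [h0 ▸ (S0 B).algebraMap_mem _, h1 ▸ (S0 B).algebraMap_mem _, le_S0 B y2, le_S0 B y3,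
        le_S0 B y4]
  have hfrac : ∀ a : K, ∃ c : P, c ≠ 0 ∧ c • a ∈ B := by
    intro a
    have ha : a ∈ Algebra.adjoin F (Set.range y) := hgen ▸ Algebra.mem_top
    induction ha using Algebra.adjoin_induction with
    | mem x hx =>
      obtain ⟨i, rfl⟩ := hx
      obtain ⟨s, hs, k, h⟩ := hyT i
      exact ⟨_, mul_ne_zero (fun h => hs (by rw [h]; exact zero_mem _)) (pow_ne_zero k (X_ne_zero 0)), h 0⟩
    | algebraMap r =>
      obtain ⟨⟨p, q⟩, e⟩ := IsLocalization.surj (nonZeroDivisors P) r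
      refine ⟨q, nonZeroDivisors.ne_zero q.2, ?_⟩
      rw [Algebra.smul_def, IsScalarTower.algebraMap_apply P F K, ← map_mul, mul_comm, e,
        ← IsScalarTower.algebraMap_apply]
      exact B.algebraMap_mem _
    | add u w _ _ hu hw =>
      obtain ⟨c, hc, hu⟩ := hu
      obtain ⟨d, hd, hw⟩ := hw
      refine ⟨c * d, mul_ne_zero hc hd, ?_⟩
      rw [smul_add]
      exact B.add_mem (smul_mem_of_dvd hu (dvd_mul_right _ _))
        (smul_mem_of_dvd hw (dvd_mul_left _ _))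
    | mul u w _ _ hu hw =>
      obtain ⟨c, hc, hu⟩ := hu
      obtain ⟨d, hd, hw⟩ := hw
      exact ⟨c * d, mul_ne_zero hc hd, by rw [← smul_mul_smul_comm]; exact B.mul_mem hu hw⟩
  have f0 : y 0 ≠ 0 := h0 ▸ X_ne_zero' 0
  have g0 : y 1 ≠ 0 := h1 ▸ X_ne_zero' 1
  -- the ring `S0 B`
  set yT : Fin 8 → S0 B := fun i => ⟨y i, hyT i⟩ with hyTdef
  have eT : ((S0 B).val : S0 B →+* K) ∘ yT = y := rfl
  have hy' : ∀ j < 14, rhoA yT j = 0 := fun j hj => Subtype.ext (by
    have := map_rhoA ((S0 B).val : S0 B →+* K) yT j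
    rw [eT, hy j hj] at this; exact this)
  have hS : ∀ (c : K) (k : ℕ), y 0 ^ k * c ∈ S0 B → y 1 ^ k * c ∈ S0 B → c ∈ S0 B :=
    fun c k a b => mem_S0_of_pow_mul c k (h0 ▸ a) (h1 ▸ b)
  have hS0 := dvd_of_S2 (S0 B) (f := yT 0) (g := yT 1) f0 hS
  have hS1 := dvd_of_S2 (S0 B) (f := yT 1) (g := yT 0) g0 fun c k a b => hS c k b a
  have f0' : yT 0 ≠ 0 := fun h => f0 (congrArg Subtype.val h)
  have g0' : yT 1 ≠ 0 := fun h => g0 (congrArg Subtype.val h)
  have eX0 : yT 0 = algebraMap P (S0 B) (X 0) := Subtype.ext h0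
  have eX1 : yT 1 = algebraMap P (S0 B) (X 1) := Subtype.ext h1
  have hJ : Ideal.span {yT 0, yT 1} ≤ Ideal.jacobson ⊥ := by
    refine le_sInf fun M hM => ?_
    have := X_mem_of_isMaximal (S0 B) (S0_le hBR) (inv_mem_S0 B) M hM.2
    rw [Ideal.span_le, eX0, eX1]
    rintro x (rfl | rfl) <;> exact this _
  obtain ⟨V, d, hd, hV1, hV2, hV3⟩ := exists_HB (int_unit _) hy' f0' g0' hS0 hS1 hJ
  have hp := pow_le_bb (int_unit _) hy' f0' g0' hS0 hS1 hJ
  obtain ⟨c0, hc0⟩ := Ideal.mem_span_range_iff_exists_fun.1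
    (hp (Ideal.pow_mem_pow (Ideal.subset_span (show yT 0 ∈ _ by simp)) 17))
  obtain ⟨c1, hc1⟩ := Ideal.mem_span_range_iff_exists_fun.1
    (hp (Ideal.pow_mem_pow (Ideal.subset_span (show yT 1 ∈ _ by simp)) 17))
  have hB' : ∀ u w v, ((BB yT u w v : S0 B) : K) = BB y u w v :=
    fun u w v => map_BB ((S0 B).val : S0 B →+* K) yT u w v
  have hBm : ∀ u w v, BB y u w v ∈ S0 B := fun u w v => hB' u w v ▸ (BB yT u w v).2
  have e0 : (c0 0 : K) * BB y 0 2 3 + c0 1 * BB y 1 2 3 + c0 2 * BB y 4 2 3 = y 0 ^ 17 := by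
    have := congrArg Subtype.val hc0
    simpa [Fin.sum_univ_three, bb, hB'] using this
  have e1 : (c1 0 : K) * BB y 0 2 3 + c1 1 * BB y 1 2 3 + c1 2 * BB y 4 2 3 = y 1 ^ 17 := by
    have := congrArg Subtype.val hc1
    simpa [Fin.sum_univ_three, bb, hB'] using this
  have eV : ∀ i, (V i 0 : K) * BB y 0 2 3 + V i 1 * BB y 1 2 3 + V i 2 * BB y 4 2 3 = 0 := by
    intro i
    have := congrArg Subtype.val (hV1 i)
    simpa [Fin.sum_univ_three, bb, hB', dotProduct] using this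
  have : CharZero K := charZero_of_injective_algebraMap (algebraMap ℂ K).injective
  have s12 : ∀ u v, BB y u u v = 0 := fun u v => by
    have := BB_swap12 hy u u v
    rwa [eq_neg_iff_add_eq_zero, add_self_eq_zero] at this
  have s13 : ∀ u w, BB y u w u = 0 := fun u v => by
    have := BB_swap13 y u v u
    rwa [eq_neg_iff_add_eq_zero, add_self_eq_zero] at this
  have R1 : ∀ D : Derivation ℂ K K,
      D (y 0) * BB y 0 2 3 + D (y 1) * BB y 1 2 3 + D (y 4) * BB y 4 2 3 = 0 := fun D => by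
    have := sum_der_BB hy D 2 3
    rwa [s12, s13, mul_zero, mul_zero, add_zero, add_zero] at this
  have cyc : ∀ w, BB y 2 3 w = BB y w 2 3 := fun w => by
    rw [BB_swap13 y 2 3 w, BB_swap12 hy w 3 2, BB_swap13 y 3 w 2, BB_swap12 hy 2 w 3]; ring
  have b4 : BB y 4 2 3 ≠ 0 := fun h => by
    obtain ⟨D1, a1, a2⟩ := exists_der (K := K) 1 0
    obtain ⟨D2, a3, a4⟩ := exists_der (K := K) 0 1
    have r1 := R1 D1
    have r2 := R1 D2
    rw [h, h0, h1] at r1 r2
    rw [a1, a2] at r1; rw [a3, a4] at r2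
    simp only [one_mul, zero_mul, mul_zero, add_zero, zero_add] at r1 r2
    rw [r1, r2, h] at e0
    exact pow_ne_zero 17 f0 (by simpa using e0.symm)
  choose v hv0 hv1 using fun i : Fin 2 => exists_der (K := K) (V i 0) (V i 1)
  rw [← h0] at hv0; rw [← h1] at hv1
  have hv4 : ∀ i, v i (y 4) = V i 2 := fun i => by
    have := R1 (v i)
    rw [hv0, hv1] at this
    exact mul_right_cancel₀ b4 (by linear_combination this - eV i)
  have hdiv : ∀ t : K, t * BB y 0 2 3 ∈ S0 B → t * BB y 1 2 3 ∈ S0 B → t * BB y 4 2 3 ∈ S0 B →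
      t ∈ S0 B := fun t a b c => by
    refine hS t 17 ?_ ?_
    · rw [← e0]
      convert (S0 B).add_mem ((S0 B).add_mem ((S0 B).mul_mem (c0 0).2 a)
        ((S0 B).mul_mem (c0 1).2 b)) ((S0 B).mul_mem (c0 2).2 c) using 1; ring
    · rw [← e1]
      convert (S0 B).add_mem ((S0 B).add_mem ((S0 B).mul_mem (c1 0).2 a)
        ((S0 B).mul_mem (c1 1).2 b)) ((S0 B).mul_mem (c1 2).2 c) using 1; ring
  have hsum : ∀ i w u, (V i 0 : K) * BB y 0 w u + V i 1 * BB y 1 w u + V i 2 * BB y 4 w u ∈ S0 B :=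
    fun i w u => (S0 B).add_mem ((S0 B).add_mem ((S0 B).mul_mem (V i 0).2 (hBm _ _ _))
      ((S0 B).mul_mem (V i 1).2 (hBm _ _ _))) ((S0 B).mul_mem (V i 2).2 (hBm _ _ _))
  have hv2 : ∀ i, v i (y 2) ∈ S0 B := fun i => by
    have : ∀ u, v i (y 2) * BB y u 2 3 ∈ S0 B := fun u => by
      have := sum_der_BB hy (v i) 3 u
      rw [hv0, hv1, hv4, s12, cyc] at this
      convert (S0 B).neg_mem (hsum i 3 u) using 1
      linear_combination this
    exact hdiv _ (this 0) (this 1) (this 4)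
  have hv3 : ∀ i, v i (y 3) ∈ S0 B := fun i => by
    have : ∀ u, v i (y 3) * BB y u 2 3 ∈ S0 B := fun u => by
      have := sum_der_BB hy (v i) 2 u
      rw [hv0, hv1, hv4, s12, BB_swap12 hy 3 2 u, cyc] at this
      convert hsum i 2 u using 1
      linear_combination -this
    exact hdiv _ (this 0) (this 1) (this 4)
  have hR : ∀ i, ∀ a ∈ RR K, v i a ∈ RR K := fun i => by
    refine der_RR Y hYR hfrac (v i) (fun j => ?_) ?_
    · fin_cases j
      · simp only [Fin.zero_eta, ← h0, hv0]; exact (V i 0).2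
      · simp only [Fin.mk_one, ← h1, hv1]; exact (V i 1).2
    · simp only [hY, Finset.mem_insert, Finset.mem_singleton, forall_eq_or_imp, forall_eq]
      exact ⟨hv2 i, hv3 i, hv4 i ▸ (V i 2).2⟩
  -- the ring `RR K`
  have hTR := S0_le hBR
  set ι : S0 B →+* RR K := (Subalgebra.inclusion hTR).toRingHom with hι
  have hyR : ∀ j < 14, rhoA (ι ∘ yT) j = 0 := fun j hj => by rw [← map_rhoA, hy' j hj, map_zero]
  have hSR : ∀ (c : K) (k : ℕ), y 0 ^ k * c ∈ RR K → y 1 ^ k * c ∈ RR K → c ∈ RR K :=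
    fun c k a b => mem_RR_of_pow_mul c k (h0 ▸ a) (h1 ▸ b)
  have hcube := cube_mem (y := ι ∘ yT) (int_unit _) hyR (fun h => f0 (congrArg Subtype.val h))
    (fun h => g0 (congrArg Subtype.val h))
    (dvd_of_S2 (RR K) (f := (ι ∘ yT) 0) (g := (ι ∘ yT) 1) f0 hSR)
    (dvd_of_S2 (RR K) (f := (ι ∘ yT) 1) (g := (ι ∘ yT) 0) g0 fun c k a b => hSR c k b a)
  have eR0 : (ι ∘ yT) 0 = algebraMap P (RR K) (X 0) := Subtype.ext h0
  have eR1 : (ι ∘ yT) 1 = algebraMap P (RR K) (X 1) := Subtype.ext h1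
  obtain ⟨δ, rfl⟩ := hd
  refine goal_of v hR (fun i M hM a ha => ?_) 17 ![y 1, y 4, y 0] ![y 4, y 0, y 1]
    (fun i j => ((![c0, c1] i j * (δ⁻¹ : (S0 B)ˣ) : S0 B) : K)) (fun j => ?_) (fun j => ?_)
    (fun i j => hTR (Subtype.property _)) fun i => ?_
  · let D : Derivation ℂ (RR K) (RR K) := Derivation.mk'
      { toFun := fun a => ⟨v i a, hR i a a.2⟩
        map_add' := fun a b => Subtype.ext (by simp)
        map_smul' := fun c a => Subtype.ext (by simp) }
      fun a b => Subtype.ext (by simp)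
    refine der_mem_of_reduction D M hM ((ι ∘ yT) 0) ((ι ∘ yT) 1) ?_ ?_ (fun q hq a b => ?_) _ hcube
      ?_ ?_ a ha
    · rw [eR0]; exact X_mem_of_isMaximal _ le_rfl inv_mem_RR M hM 0
    · rw [eR1]; exact X_mem_of_isMaximal _ le_rfl inv_mem_RR M hM 1
    · exact isMaximal_of_X_mem _ le_rfl q hq (eR0 ▸ a) (eR1 ▸ b)
    · have : D ((ι ∘ yT) 0) = ι (V i 0) := Subtype.ext (hv0 i)
      rw [this]; exact m0_map ι yT (hV3 i 0)
    · have : D ((ι ∘ yT) 1) = ι (V i 1) := Subtype.ext (hv1 i)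
      rw [this]; exact m0_map ι yT (hV3 i 1)
  · fin_cases j <;> exact hTR (hyT _)
  · fin_cases j <;> exact hTR (hyT _)
  · have hδ : ((δ : S0 B) : K) * ((δ⁻¹ : (S0 B)ˣ) : S0 B) = 1 := by
      exact_mod_cast congrArg Subtype.val δ.mul_inv
    have k0 := congrArg Subtype.val (congrFun hV2 0)
    have k1 := congrArg Subtype.val (congrFun hV2 1)
    have k2 := congrArg Subtype.val (congrFun hV2 2)
    simp [cross_apply, bb, hB'] at k0 k1 k2
    fin_cases i
    · simp [Fin.sum_univ_three, ← h0, hv0, hv1, hv4]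
      rw [k0, k1, k2]
      linear_combination -e0 - (c0 0 * BB y 0 2 3 + c0 1 * BB y 1 2 3 + c0 2 * BB y 4 2 3) * hδ
    · simp [Fin.sum_univ_three, ← h1, hv0, hv1, hv4]
      rw [k0, k1, k2]
      linear_combination -e1 - (c1 0 * BB y 0 2 3 + c1 1 * BB y 1 2 3 + c1 2 * BB y 4 2 3) * hδ

omit h0 h1 hy in
theorem goal : Goal := by
  obtain ⟨K, _, _, _, _, _, _, _, y, h0, h1, hy, hgen⟩ := exists_point 14 rhoZ phiZ
    (fun l hl => rho_phi X l hl) 5 (by norm_num) y0 ptN ptN'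
    (fun k => by simp [ptN, List.getD_eq_getElem?_getD]; rcases k with _|_|_|_|_|_|_|_|_|_|_|_|_|_|k <;> simp)
    (fun k => by simp [ptN, List.getD_eq_getElem?_getD]; rcases k with _|_|_|_|_|_|_|_|_|_|_|_|_|_|k <;> simp)
    (fun j hj => by rw [aeval_rhoZ]; exact pt_ok0 j hj)
    (fun j hj k hk => by simp only [aeval_pderiv_rhoZ, aeval_phiZ]; exact pt_ok1 j hj k hk)
  exact goal_of_point h0 h1 (fun j hj => by rw [← aeval_rhoZ]; exact hy j hj) hgen

end Crest.Agent.R278
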