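import Crest.Agent.R278.Tab4

/-! From the truncated identities to an exact Hilbert–Burch matrix. -/

set_option autoImplicit false
namespace Crest.Agent.R278
open Finset List Matrix

variable {T : Type*} [CommRing T]

lemma span_pair_pow_le {f g : T} {n : ℕ} {J : Ideal T} (h : ∀ a ≤ n, f ^ a * g ^ (n - a) ∈ J) :
    Ideal.span {f, g} ^ n ≤ J := by
  rw [Ideal.span_insert, ← Ideal.add_eq_sup, add_pow]
  refine Finset.sum_induction _ (· ≤ J) (fun _ _ h1 h2 => sup_le h1 h2) bot_le fun a ha => ?_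
  refine Ideal.mul_le_left.trans ?_
  rw [Ideal.span_singleton_pow, Ideal.span_singleton_pow, Ideal.span_singleton_mul_span_singleton,
    Ideal.span_singleton_le_iff_mem]
  exact h a (by simpa [Nat.lt_succ_iff] using ha)

lemma mon_mem_pow (f g : T) (i j : ℕ) : f ^ i * g ^ j ∈ Ideal.span {f, g} ^ (i + j) := by
  rw [pow_add]
  exact Ideal.mul_mem_mul (Ideal.pow_mem_pow (Ideal.subset_span (by simp)) _)
    (Ideal.pow_mem_pow (Ideal.subset_span (by simp)) _)

lemma div_pow [IsDomain T] {f g : T} (hf : f ≠ 0) (hS : ∀ a k, f ∣ a * g ^ k → f ∣ a) {c : T}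
    {k : ℕ} (h : f * c ∈ Ideal.span {f, g} ^ (k + 1)) : c ∈ Ideal.span {f, g} ^ k := by
  have h1 : Ideal.span {f, g} ^ (k + 1) ≤
      Ideal.span {f} * Ideal.span {f, g} ^ k ⊔ Ideal.span {g ^ (k + 1)} := by
    refine span_pair_pow_le fun a ha => ?_
    cases a with
    | zero => exact Ideal.mem_sup_right (by simp)
    | succ a =>
      refine Ideal.mem_sup_left ?_
      have := mon_mem_pow f g a (k - a)
      rw [show a + (k - a) = k by omega] at this
      rw [pow_succ', mul_assoc, show k + 1 - (a + 1) = k - a by omega]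
      exact Ideal.mul_mem_mul (Ideal.mem_span_singleton_self _) this
  obtain ⟨p, hp, q, hq, e⟩ := Submodule.mem_sup.1 (h1 h)
  obtain ⟨p', hp', rfl⟩ := Ideal.mem_span_singleton_mul.1 hp
  obtain ⟨q', rfl⟩ := Ideal.mem_span_singleton'.1 hq
  obtain ⟨r, rfl⟩ := hS q' (k + 1) ⟨c - p', by linear_combination e⟩
  have : c = p' + r * g * (f ^ 0 * g ^ k) := mul_left_cancel₀ hf (by linear_combination -e)
  rw [this]
  exact Ideal.add_mem _ hp' (Ideal.mul_mem_left _ _ (by simpa using mon_mem_pow f g 0 k))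

section map
variable {T' : Type*} [CommRing T'] (π : T →+* T')

lemma map_pair_bas (y : Fin 8 → T) (L : List TL) :
    π (pair (y 0) (y 1) L (bas y)) = pair ((π ∘ y) 0) ((π ∘ y) 1) L (bas (π ∘ y)) := by
  rw [map_pair, map_bas]; rfl

lemma IsRow.map {y : Fin 8 → T} {e : T} {R : List (List TL)} (h : IsRow y e R) :
    IsRow (π ∘ y) (π e) R := by
  unfold IsRow at *
  conv => { congr; rfl; rfl; rw [← map_bas] }
  rw [forall₂_map_right_iff]
  exact h.imp fun L b e => by rw [← map_pair_bas, e, map_mul]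

lemma Tab.map {y : Fin 8 → T} (h : Tab y) : Tab (π ∘ y) := by
  have h' : Forall₂ (fun row e => IsRow y e row) tabL (bas y) := h
  show Forall₂ (fun row e => IsRow (π ∘ y) e row) tabL (bas (π ∘ y))
  rw [← map_bas, forall₂_map_right_iff]
  exact h'.imp fun _ _ e => e.map π

end map

lemma quot_nil (y : Fin 8 → T) (n : ℕ) :
    Ideal.span {(Ideal.Quotient.mk (Ideal.span {y 0, y 1} ^ n) ∘ y) 0,
      (Ideal.Quotient.mk (Ideal.span {y 0, y 1} ^ n) ∘ y) 1} ^ n = ⊥ := by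
  have := Ideal.map_quotient_self (Ideal.span {y 0, y 1} ^ n)
  rwa [Ideal.map_pow, Ideal.map_span, Set.image_pair] at this

lemma quot_unit (hu : ∀ n : ℤ, n ≠ 0 → IsUnit (n : T)) (J : Ideal T) (n : ℤ) (hn : n ≠ 0) :
    IsUnit (n : T ⧸ J) := by simpa using (hu n hn).map (Ideal.Quotient.mk J)

lemma cross_vecMul (a b : Fin 3 → T) (G : Matrix (Fin 3) (Fin 3) T) :
    crossProduct (a ᵥ* G) (b ᵥ* G) = G.adjugate *ᵥ crossProduct a b := by
  ext i
  fin_cases i <;>
    simp [cross_apply, adjugate_fin_three, vecMul, mulVec, dotProduct, Fin.sum_univ_three] <;> ring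

/-- the three values of the trilinear form -/
noncomputable def bb (y : Fin 8 → T) : Fin 3 → T := ![BB y 0 2 3, BB y 1 2 3, BB y 4 2 3]

lemma range_bb (y : Fin 8 → T) : Set.range (bb y) = {BB y 0 2 3, BB y 1 2 3, BB y 4 2 3} := by
  unfold bb
  generalize BB y 0 2 3 = a, BB y 1 2 3 = b, BB y 4 2 3 = c
  ext; simp; tauto

/-- the ideal of the origin -/
def m0 (y : Fin 8 → T) : Ideal T :=
  Ideal.span {y 0, y 1} ⊔ Ideal.span {y 2, y 3, y 4, y 5, y 6, y 7}

lemma pair_bas_mem (y : Fin 8 → T) (L : List TL) (h : cst (L.getD 0 []) = 0) :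
    pair (y 0) (y 1) L (bas y) ∈ m0 y := by
  cases L with
  | nil => simp
  | cons l L =>
    have h1 := ev_sub_cst (Ideal.span {y 0, y 1}) (Ideal.subset_span (by simp))
      (Ideal.subset_span (by simp)) (f := y 0) (g := y 1) l
    rw [List.getD_cons_zero] at h
    rw [h, Int.cast_zero, sub_zero] at h1
    rw [bas, pair_cons, mul_one]
    refine Ideal.add_mem _ (Ideal.mem_sup_left h1) (Ideal.mem_sup_right (pair_mem _ _ _ _ _ ?_))
    simp only [List.mem_cons, List.not_mem_nil, or_false, forall_eq_or_imp, forall_eq]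
    refine ⟨?_, ?_, ?_, ?_, ?_, ?_, Ideal.mul_mem_left _ _ ?_⟩ <;>
      exact Ideal.subset_span (by simp)

variable [IsDomain T] {y : Fin 8 → T} (hu : ∀ n : ℤ, n ≠ 0 → IsUnit (n : T))
  (hy : ∀ j < 14, rhoA y j = 0) (h0 : y 0 ≠ 0) (h1 : y 1 ≠ 0)
  (hS0 : ∀ a k, y 0 ∣ a * y 1 ^ k → y 0 ∣ a) (hS1 : ∀ a k, y 1 ∣ a * y 0 ^ k → y 1 ∣ a)
include hu hy h0 h1 hS0 hS1

theorem tab18 : Tab (Ideal.Quotient.mk (Ideal.span {y 0, y 1} ^ 18) ∘ y) := by
  set I : Ideal T := Ideal.span {y 0, y 1} with hI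
  have hy' : ∀ j < 14, rhoA (Ideal.Quotient.mk (I ^ 20) ∘ y) j = 0 := fun j hj => by
    rw [← map_rhoA, hy j hj, map_zero]
  obtain ⟨r1, r2, r3⟩ := stage2 (quot_unit hu _) (quot_nil y 20) hy'
  obtain ⟨z1, z2, z3, z4, z5, z6⟩ := stage3 (quot_unit hu _) (quot_nil y 20) hy'
  have hle : I ^ 20 ≤ I ^ 18 := Ideal.pow_le_pow_right (by norm_num)
  have hle' : I ^ 19 ≤ I ^ 18 := Ideal.pow_le_pow_right (by norm_num)
  have e : Ideal.Quotient.factor hle ∘ Ideal.Quotient.mk (I ^ 20) ∘ y =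
      Ideal.Quotient.mk (I ^ 18) ∘ y := by funext i; simp
  have r1' := r1.map (Ideal.Quotient.factor hle)
  have r2' := r2.map (Ideal.Quotient.factor hle)
  have r3' := r3.map (Ideal.Quotient.factor hle)
  rw [e] at r1' r2' r3'
  simp only [← map_pair_bas] at z1 z2 z3 z4 z5 z6
  simp only [Function.comp, ← map_mul, ← map_sub, Ideal.Quotient.eq_zero_iff_mem]
    at z1 z2 z3 z4 z5 z6
  have d0 : ∀ {c : T} {k : ℕ}, y 0 * c ∈ I ^ (k + 1) → c ∈ I ^ k := div_pow h0 hS0
  have d1 : ∀ {c : T} {k : ℕ}, y 1 * c ∈ I ^ (k + 1) → c ∈ I ^ k := by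
    rw [hI, Ideal.span_pair_comm]; exact div_pow h1 hS1
  refine tab_of (quot_nil y 18) r1' r2' r3' ?_ ?_ ?_ ?_ ?_ ?_ <;>
    rw [← map_pair_bas] <;> simp only [Function.comp, ← map_mul, Ideal.Quotient.eq]
  exacts [hle' (d0 z1), hle' (d0 z2), hle' (d0 z3), hle' (d1 z4), hle' (d1 z5), d0 (d0 z6)]

theorem cube_mem : ∀ x ∈ ({y 2, y 3, y 4, y 5, y 6, y 7} : Set T),
    x ^ 3 ∈ Ideal.span {y 0, y 1} * m0 y ^ 2 := by
  set I : Ideal T := Ideal.span {y 0, y 1} with hI
  have hle : I ^ 18 ≤ I ^ 3 := Ideal.pow_le_pow_right (by norm_num)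
  have e : Ideal.Quotient.factor hle ∘ Ideal.Quotient.mk (I ^ 18) ∘ y =
      Ideal.Quotient.mk (I ^ 3) ∘ y := by funext i; simp
  have hT := (tab18 hu hy h0 h1 hS0 hS1).map (Ideal.Quotient.factor hle)
  rw [e] at hT
  obtain ⟨a1, a2, a3, a4, a5, a6⟩ := cubes (quot_nil y 3) hT
  have h3 : I ^ 3 ≤ I * m0 y ^ 2 := by
    rw [pow_succ']
    exact Ideal.mul_mono_right (Ideal.pow_right_mono le_sup_left _)
  have h4 : y 4 * y 4 ∈ m0 y ^ 2 := by
    rw [← pow_two]
    exact Ideal.pow_mem_pow (Ideal.mem_sup_right (Ideal.subset_span (by simp))) _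
  have e5 : (57591 : T ⧸ Ideal.span {y 0, y 1} ^ 3) =
      Ideal.Quotient.mk (Ideal.span {y 0, y 1} ^ 3) 57591 := (map_ofNat _ _).symm
  simp only [Function.comp, e5, ← map_mul, ← map_pow, Ideal.Quotient.eq,
    Ideal.Quotient.eq_zero_iff_mem] at a1 a2 a3 a4 a5 a6
  simp only [Set.mem_insert_iff, Set.mem_singleton_iff, forall_eq_or_imp, forall_eq]
  refine ⟨?_, ?_, h3 a3, h3 a4, h3 a5, h3 a6⟩
  · have := Ideal.add_mem _ (h3 a1) (Ideal.mul_mem_mul (Ideal.mul_mem_left I 57591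
      (Ideal.subset_span (show y 0 ∈ _ by simp))) h4)
    rwa [sub_add_cancel] at this
  · have := Ideal.add_mem _ (h3 a2) (Ideal.mul_mem_mul (Ideal.mul_mem_left I 57591
      (Ideal.subset_span (show y 1 ∈ _ by simp))) h4)
    rwa [sub_add_cancel] at this

theorem pow_le_bb (hJ : Ideal.span {y 0, y 1} ≤ Ideal.jacobson ⊥) :
    Ideal.span {y 0, y 1} ^ 17 ≤ Ideal.span (Set.range (bb y)) := by
  set I : Ideal T := Ideal.span {y 0, y 1} with hI
  have hT := tab18 hu hy h0 h1 hS0 hS1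
  obtain ⟨e0, e1, e2⟩ := BB_vals (quot_nil y 18) hT
  refine Submodule.le_of_le_smul_of_le_jacobson_bot
    (Ideal.FG.pow (Submodule.fg_span (Set.toFinite _))) hJ (span_pair_pow_le fun a ha => ?_)
  have := cert_mem (quot_unit hu _) (quot_nil y 18) hT a (by omega)
  rw [← e0, ← e1, ← e2, ← map_BB, ← map_BB, ← map_BB] at this
  rw [← Set.image_pair _ (BB y 1 2 3), ← Set.image_insert_eq, ← Ideal.map_span, ← range_bb]
    at this
  simp only [Function.comp, ← map_mul, ← map_pow] at this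
  rw [Ideal.mem_quotient_iff_mem_sup] at this
  rwa [smul_eq_mul, ← pow_succ']

theorem exists_HB (hJ : Ideal.span {y 0, y 1} ≤ Ideal.jacobson ⊥) :
    ∃ (V : Fin 2 → Fin 3 → T) (d : T), IsUnit d ∧ (∀ i, V i ⬝ᵥ bb y = 0) ∧
      crossProduct (V 0) (V 1) = d • bb y ∧ ∀ i u, V i u ∈ m0 y := by
  set I : Ideal T := Ideal.span {y 0, y 1} with hI
  have hT := tab18 hu hy h0 h1 hS0 hS1
  obtain ⟨e0, e1, e2⟩ := BB_vals (quot_nil y 18) hT
  have x0 := cross_eq (quot_nil y 18) hT chkX0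
  have x1 := cross_eq (quot_nil y 18) hT chkX1
  have x2 := cross_eq (quot_nil y 18) hT chkX2
  rw [← e0] at x0; rw [← e1] at x1; rw [← e2] at x2
  have e5 : ((kap : ℤ) : T ⧸ Ideal.span {y 0, y 1} ^ 18) =
      Ideal.Quotient.mk (Ideal.span {y 0, y 1} ^ 18) ((kap : ℤ) : T) := (map_intCast _ _).symm
  simp only [← map_pair_bas, ← map_BB, e5, ← map_mul, ← map_sub, Ideal.Quotient.eq] at x0 x1 x2
  set a : Fin 3 → T := fun u => pair (y 0) (y 1) (![va0, va1, va2] u) (bas y) with ha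
  set b : Fin 3 → T := fun u => pair (y 0) (y 1) (![vb0, vb1, vb2] u) (bas y) with hb
  have hm := fun L hL => pair_bas_mem y L (cst_v L hL)
  have ham : ∀ u, a u ∈ m0 y := fun u => by fin_cases u <;> exact hm _ (by simp)
  have hbm : ∀ u, b u ∈ m0 y := fun u => by fin_cases u <;> exact hm _ (by simp)
  have hx : ∀ u, crossProduct a b u - ((kap : ℤ) : T) * bb y u ∈ I ^ 18 := fun u => by
    fin_cases u
    exacts [x0, x1, x2]
  have hle : I ^ 18 ≤ I • Submodule.span T (Set.range (bb y)) := by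
    rw [pow_succ']
    exact Ideal.mul_mono_right (pow_le_bb hu hy h0 h1 hS0 hS1 hJ)
  choose E hE1 hE2 using fun u => (Submodule.mem_ideal_smul_span_iff_exists_sum I (bb y) _).1
    (hle (hx u))
  set G : Matrix (Fin 3) (Fin 3) T := ((kap : ℤ) : T) • 1 + Matrix.of fun u w => E u w with hG
  have hGb : G *ᵥ bb y = crossProduct a b := by
    ext u
    have := hE2 u
    rw [Finsupp.sum_fintype _ _ (by simp)] at this
    rw [hG, add_mulVec, smul_mulVec, one_mulVec]
    simp only [Pi.add_apply, Pi.smul_apply, smul_eq_mul, mulVec, dotProduct, of_apply] at this ⊢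
    linear_combination this
  refine ⟨![a ᵥ* G, b ᵥ* G], G.det, ?_, fun i => ?_, ?_, fun i u => ?_⟩
  · have h2 : Ideal.Quotient.mk I G.det = Ideal.Quotient.mk I (((kap : ℤ) : T) ^ 3) := by
      rw [RingHom.map_det]
      have : (Ideal.Quotient.mk I).mapMatrix G =
          Matrix.diagonal fun _ => Ideal.Quotient.mk I ((kap : ℤ) : T) := by
        ext u w
        have := Ideal.Quotient.eq_zero_iff_mem.2 (hE1 u w)
        by_cases h : u = w <;> simp [hG, h, this]
        rw [← h] at this; rw [← h]; exact this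
      rw [this]; simp
    rw [Ideal.Quotient.eq] at h2
    obtain ⟨k, hk⟩ := (hu _ kap_ne).pow 3
    have h3 : IsUnit ((k⁻¹ : Tˣ) * G.det) := by
      refine Ideal.isUnit_of_sub_one_mem_jacobson_bot _ (hJ ?_)
      have := I.mul_mem_left (k⁻¹ : Tˣ) h2
      rwa [mul_sub, ← hk, Units.inv_mul] at this
    exact isUnit_of_mul_isUnit_right h3
  · fin_cases i
    · show (a ᵥ* G) ⬝ᵥ bb y = 0
      rw [← dotProduct_mulVec, hGb, dot_self_cross]
    · show (b ᵥ* G) ⬝ᵥ bb y = 0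
      rw [← dotProduct_mulVec, hGb, dot_cross_self]
  · show crossProduct (a ᵥ* G) (b ᵥ* G) = _
    rw [cross_vecMul, ← hGb, mulVec_mulVec, adjugate_mul, smul_mulVec, one_mulVec]
  · fin_cases i
    · show ∑ w, a w * G w u ∈ _
      exact Ideal.sum_mem _ fun w _ => Ideal.mul_mem_right _ _ (ham w)
    · show ∑ w, b w * G w u ∈ _
      exact Ideal.sum_mem _ fun w _ => Ideal.mul_mem_right _ _ (hbm w)

end Crest.Agent.R278
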