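import Crest.Agent.R278.HB
import Crest.Agent.R278.Der

/-! The coordinates `x₁, x₂, x₃` are integral over the local ring of the origin. -/

set_option autoImplicit false
namespace Crest.Agent.R278
open List MvPolynomial
open scoped Pointwise

variable {K : Type} [Field K] [Algebra P K]

lemma X_mem_nn (i : Fin 2) : (X i : P) ∈ nn := by simp [mem_nn]

lemma notMem_nn_of_sub {r : P} (h : r - 1 ∈ nn) : r ∉ nn := fun h' =>
  one_notMem_nn (by simpa using nn.sub_mem h' h)

lemma mem_of_int_mul' {N : Submodule P K} {n : ℤ} (hn : n ≠ 0) {x : K} (h : (n : K) * x ∈ N) :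
    x ∈ N := by
  have := N.smul_mem (C ((n : ℂ)⁻¹)) h
  have e : (n : K) = algebraMap P K (C (n : ℂ)) := by simp
  rwa [e, ← Algebra.smul_def, smul_smul, ← C_mul, inv_mul_cancel₀ (by exact_mod_cast hn), C_1,
    one_smul] at this

theorem x_mem_RR {y : Fin 8 → K} (h0 : y 0 = algebraMap P K (X 0))
    (h1 : y 1 = algebraMap P K (X 1)) (hy : ∀ j < 14, rhoA y j = 0) :
    y 2 ∈ RR K ∧ y 3 ∈ RR K ∧ y 4 ∈ RR K := by
  set W : Submodule P K := Submodule.span P {x | x ∈ bas y} with hW
  set W2 : Submodule P K := Submodule.span P {x | x ∈ mon22 y} with hW2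
  set W3 : Submodule P K := W2 ⊔ Submodule.span P
    {y 2 * (y 4 * y 4), y 3 * (y 4 * y 4), y 4 * (y 4 * y 4)} with hW3
  have fW : W.FG := Submodule.fg_span (List.finite_toSet _)
  have fW2 : W2.FG := Submodule.fg_span (List.finite_toSet _)
  have fW3 : W3.FG := fW2.sup (Submodule.fg_span (Set.toFinite _))
  have h2 : ∀ R ∈ CR, ipair R (mon22 y) ∈ nn • W2 := by
    intro R hR
    rw [← CR_eq] at hR
    obtain ⟨C, -, rfl⟩ := List.mem_map.1 hR
    refine ipair_icomb_mem nn (X_mem_nn 0) (X_mem_nn 1) W2 _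
      (fun x hx => Submodule.subset_span hx) C relL fun L hL => ?_
    obtain ⟨j, hj, rfl⟩ := List.mem_map.1 hL
    rw [← h0, ← h1]; exact hy j (List.mem_range.1 hj)
  simp only [mon22, CR, List.mem_cons, List.not_mem_nil, or_false, forall_eq_or_imp, forall_eq,
    ipair_cons, ipair_nil, Int.cast_zero, zero_mul, zero_add, add_zero] at h2
  obtain ⟨a1, a2, a3, a4, a5, a6, a7, a8, a9, a10, a11, a12, a13, a14⟩ := h2
  have hb : ∀ x ∈ bas y, x ∈ W := fun x hx => Submodule.subset_span hx
  have hm : ∀ x ∈ mon22 y, x ∈ W2 := fun x hx => Submodule.subset_span hx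
  have hs : ∀ n : ℤ, (n : K) * (y 4 * y 4) ∈ W := fun n => by
    rw [← zsmul_eq_mul]; exact zsmul_mem (hb _ (by simp [bas])) n
  have k1 : W2 ≤ W ⊔ nn • W2 := by
    generalize nn • W2 = J at *
    refine Submodule.span_le.2 fun x hx => ?_
    have b2 := Submodule.sub_mem _ (Submodule.mem_sup_right (S := W) a2)
      (Submodule.mem_sup_left (hs 215697492))
    have b6 := Submodule.sub_mem _ (Submodule.mem_sup_right (S := W) a6)
      (Submodule.mem_sup_left (hs (-2034882)))
    have b10 := Submodule.sub_mem _ (Submodule.mem_sup_right (S := W) a10)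
      (Submodule.mem_sup_left (hs (-2034882)))
    rw [add_sub_cancel_right] at b2
    rw [add_sub_cancel_left] at b6 b10
    simp only [mon22, Set.mem_ofPred_eq, List.mem_cons, List.not_mem_nil, or_false] at hx
    rcases hx with h | h | h | h | h | h | h | h | h | h | h | h | h | h | h | h | h | h | h | h |
      h | h <;> subst h <;>
      first
        | (refine mem_of_int_mul' (n := 318) (by norm_num) ?_; assumption)
        | (refine Submodule.mem_sup_right (mem_of_int_mul' (n := 318) (by norm_num) ?_); assumption)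
        | exact Submodule.mem_sup_left (hb _ (by simp [bas]))
  obtain ⟨r, hr, hrW⟩ := Submodule.exists_sub_one_mem_and_smul_le_of_fg_of_le_sup fW2 le_rfl k1
  have hs3 : ∀ x ∈ ({y 2, y 3, y 4} : Set K), x * (y 4 * y 4) ∈ W3 := by
    rintro x (rfl | rfl | rfl) <;>
      exact Submodule.mem_sup_right (Submodule.subset_span (by simp))
  have hx : ∀ x ∈ ({y 2, y 3, y 4} : Set K), ∀ w ∈ W, x * w ∈ W3 := by
    intro x hx w hw
    have : W ≤ W3.comap (LinearMap.mulLeft P x) := by
      refine Submodule.span_le.2 fun e he => ?_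
      have h3 := hs3 x hx
      simp only [bas, Set.mem_ofPred_eq, List.mem_cons, List.not_mem_nil, or_false] at he
      show x * e ∈ W3
      rcases he with h | h | h | h | h | h | h | h <;> subst h <;>
        first
          | exact h3
          | (rcases hx with rfl | rfl | rfl <;>
              exact Submodule.mem_sup_left (hm _ (by simp [mon22, mul_comm])))
    exact this hw
  have hx2 : ∀ x ∈ ({y 2, y 3, y 4} : Set K), ∀ w ∈ nn • W2, r • (x * w) ∈ nn • W3 := by
    intro x hx' w hw
    refine Submodule.smul_induction_on hw (fun s hs w hw => ?_) fun u v hu hv => ?_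
    · rw [mul_smul_comm, smul_comm, ← mul_smul_comm]
      exact Submodule.smul_mem_smul hs (hx x hx' _ (hrW (Submodule.smul_mem_pointwise_smul _ _ _ hw)))
    · rw [mul_add, smul_add]; exact Submodule.add_mem _ hu hv
  have hc : ∀ (n : ℤ), n ≠ 0 → ∀ x ∈ W3, r • ((n : K) * x) ∈ nn • W3 → x ∈ nn • W3 := by
    intro n hn x hx h
    rw [← mul_smul_comm] at h
    have := Submodule.sub_mem _ (mem_of_int_mul' hn h) (Submodule.smul_mem_smul hr hx)
    rwa [← sub_smul, sub_sub_cancel, one_smul] at this
  have k2 : W3 ≤ W ⊔ nn • W3 := by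
    refine sup_le (k1.trans (sup_le_sup_left (Submodule.smul_mono le_rfl le_sup_left) _))
      (le_trans (Submodule.span_le.2 ?_) le_sup_right)
    rintro x (rfl | rfl | rfl)
    · refine hc 318 (by norm_num) _ (hs3 _ (by simp)) ?_
      convert hx2 (y 4) (by simp) _ a3 using 2; ring
    · refine hc 318 (by norm_num) _ (hs3 _ (by simp)) ?_
      convert hx2 (y 4) (by simp) _ a5 using 2; ring
    · refine hc 215697492 (by norm_num) _ (hs3 _ (by simp)) ?_
      have := Submodule.sub_mem _ (hx2 (y 4) (by simp) _ a2) (hx2 (y 2) (by simp) _ a5)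
      rw [← smul_sub] at this
      convert this using 2; ring
  obtain ⟨r', hr', hrW'⟩ := Submodule.exists_sub_one_mem_and_smul_le_of_fg_of_le_sup fW3 le_rfl k2
  have hne : W ≠ ⊥ := fun h => by
    have := hb 1 (by simp [bas])
    rw [h] at this
    exact one_ne_zero this
  have key : ∀ x ∈ ({y 2, y 3, y 4} : Set K), x ∈ RR K := fun x hx' =>
    ⟨r', notMem_nn_of_sub hr', isIntegral_of_smul_mem_submodule W hne fW _ fun w hw => by
      rw [smul_eq_mul, smul_mul_assoc]
      exact hrW' (Submodule.smul_mem_pointwise_smul _ _ _ (hx x hx' w hw))⟩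
  exact ⟨key _ (by simp), key _ (by simp), key _ (by simp)⟩

end Crest.Agent.R278
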