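import Crest.Agent.R278.Vec
import Crest.Agent.R278.Data1
import Crest.Agent.R278.Defs

/-! The surface: relations `rhoA`, skew matrix `phiA`, the identity `ρ φ = 0` and a point mod 5. -/

set_option autoImplicit false
set_option maxRecDepth 100000
namespace Crest.Agent.R278
open Finset List MvPolynomial

section defs
variable {A : Type*} [CommRing A]

def mon22 (y : Fin 8 → A) : List A :=
  [1, y 2, y 3, y 4, y 2 * y 2, y 2 * y 3, y 2 * y 4, y 3 * y 3, y 3 * y 4, y 4 * y 4, y 5, y 2 *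
    y 5, y 3 * y 5, y 4 * y 5, y 6, y 2 * y 6, y 3 * y 6, y 4 * y 6, y 7, y 2 * y 7, y 3 * y 7, y
    4 * y 7]

def dmon (y t : Fin 8 → A) : List A :=
  [0, t 2, t 3, t 4, t 2 * y 2 + y 2 * t 2, t 2 * y 3 + y 2 * t 3, t 2 * y 4 + y 2 * t 4, t 3 * y
    3 + y 3 * t 3, t 3 * y 4 + y 3 * t 4, t 4 * y 4 + y 4 * t 4, t 5, t 2 * y 5 + y 2 * t 5, t 3 *
    y 5 + y 3 * t 5, t 4 * y 5 + y 4 * t 5, t 6, t 2 * y 6 + y 2 * t 6, t 3 * y 6 + y 3 * t 6, t 4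
    * y 6 + y 4 * t 6, t 7, t 2 * y 7 + y 2 * t 7, t 3 * y 7 + y 3 * t 7, t 4 * y 7 + y 4 * t 7]

def mon50 (y : Fin 8 → A) : List A :=
  [1, y 2, y 3, y 4, y 2 * y 2, y 2 * y 3, y 2 * y 4, y 3 * y 3, y 3 * y 4, y 4 * y 4, y 2 * y 2 *
    y 2, y 2 * y 2 * y 3, y 2 * y 2 * y 4, y 2 * y 3 * y 3, y 2 * y 3 * y 4, y 2 * y 4 * y 4, y 3
    * y 3 * y 3, y 3 * y 3 * y 4, y 3 * y 4 * y 4, y 4 * y 4 * y 4, y 5, y 2 * y 5, y 3 * y 5, y 4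
    * y 5, y 2 * y 2 * y 5, y 2 * y 3 * y 5, y 2 * y 4 * y 5, y 3 * y 3 * y 5, y 3 * y 4 * y 5, y
    4 * y 4 * y 5, y 6, y 2 * y 6, y 3 * y 6, y 4 * y 6, y 2 * y 2 * y 6, y 2 * y 3 * y 6, y 2 * y
    4 * y 6, y 3 * y 3 * y 6, y 3 * y 4 * y 6, y 4 * y 4 * y 6, y 7, y 2 * y 7, y 3 * y 7, y 4 * y
    7, y 2 * y 2 * y 7, y 2 * y 3 * y 7, y 2 * y 4 * y 7, y 3 * y 3 * y 7, y 3 * y 4 * y 7, y 4 *
    y 4 * y 7]

def mon4 (y : Fin 8 → A) : List A := [1, y 2, y 3, y 4]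

def bas (y : Fin 8 → A) : List A := [1, y 2, y 3, y 4, y 5, y 6, y 7, y 4 * y 4]

noncomputable def rel (j : ℕ) : List TL := rL.getD j [] ++ mL.getD j []

noncomputable def phiL (j k : ℕ) : List TL :=
  bif Nat.ble k j then negV ((phiU.getD k []).getD j []) else (phiU.getD j []).getD k []

noncomputable def rhoA (y : Fin 8 → A) (j : ℕ) : A := pair (y 0) (y 1) (rel j) (mon22 y)

noncomputable def phiA (y : Fin 8 → A) (j k : ℕ) : A := pair (y 0) (y 1) (phiL j k) (mon4 y)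

noncomputable def drho (y t : Fin 8 → A) (j : ℕ) : A :=
  t 0 * pair (y 0) (y 1) ((rel j).map dF) (mon22 y) +
    t 1 * pair (y 0) (y 1) ((rel j).map dG) (mon22 y) + pair (y 0) (y 1) (rel j) (dmon y t)

def sgl (u : Fin 8) : Fin 8 → A := fun i => if i = u then 1 else 0

def tab50 : List (List (List TL)) :=
  [[un 0, un 1, un 2, un 3, un 4, un 5, un 6, un 7, un 8, un 9, un 20, un 21, un 22, un 23, un 30,
    un 31, un 32, un 33, un 40, un 41, un 42, un 43],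
  [un 1, un 4, un 5, un 6, un 10, un 11, un 12, un 13, un 14, un 15, un 21, un 24, un 25, un 26,
    un 31, un 34, un 35, un 36, un 41, un 44, un 45, un 46],
  [un 2, un 5, un 7, un 8, un 11, un 13, un 14, un 16, un 17, un 18, un 22, un 25, un 27, un 28,
    un 32, un 35, un 37, un 38, un 42, un 45, un 47, un 48],
  [un 3, un 6, un 8, un 9, un 12, un 14, un 15, un 17, un 18, un 19, un 23, un 26, un 28, un 29,
    un 33, un 36, un 38, un 39, un 43, un 46, un 48, un 49]]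

variable {A' : Type*} [CommRing A'] (π : A →+* A')

lemma map_mon22 (y : Fin 8 → A) : (mon22 y).map π = mon22 (π ∘ y) := by simp [mon22]
lemma map_mon4 (y : Fin 8 → A) : (mon4 y).map π = mon4 (π ∘ y) := by simp [mon4]
lemma map_bas (y : Fin 8 → A) : (bas y).map π = bas (π ∘ y) := by simp [bas]
lemma map_dmon (y t : Fin 8 → A) : (dmon y t).map π = dmon (π ∘ y) (π ∘ t) := by simp [dmon]
lemma map_sgl (u : Fin 8) : π ∘ sgl u = sgl u := by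
  funext i; simp only [sgl, Function.comp]; split_ifs <;> simp

lemma map_rhoA (y : Fin 8 → A) (j : ℕ) : π (rhoA y j) = rhoA (π ∘ y) j := by
  rw [rhoA, map_pair, map_mon22]; rfl
lemma map_phiA (y : Fin 8 → A) (j k : ℕ) : π (phiA y j k) = phiA (π ∘ y) j k := by
  rw [phiA, map_pair, map_mon4]; rfl
lemma map_drho (y t : Fin 8 → A) (j : ℕ) : π (drho y t j) = drho (π ∘ y) (π ∘ t) j := by
  simp only [drho, map_add, map_mul, map_pair, map_mon22, map_dmon]; rfl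

lemma der_rhoA {R : Type*} [CommRing R] [Algebra R A] (D : Derivation R A A) (y : Fin 8 → A)
    (j : ℕ) : D (rhoA y j) = drho y (D ∘ y) j := by
  have : (mon22 y).map D = dmon y (D ∘ y) := by simp [mon22, dmon, mul_comm, add_comm]
  rw [rhoA, der_pair, this]; rfl

lemma phiU_diag : ∀ j < 14, (phiU.getD j []).getD j [] = [] := by decide +kernel

lemma phiA_skew (y : Fin 8 → A) (j k : ℕ) (hj : j < 14) : phiA y k j = - phiA y j k := by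
  unfold phiA phiL
  rcases lt_trichotomy j k with h | rfl | h
  · have h1 : Nat.ble j k = true := Nat.ble_eq_true_of_le h.le
    have h2 : Nat.ble k j = false := by
      cases e : Nat.ble k j
      · rfl
      · exact absurd (Nat.le_of_ble_eq_true e) (by omega)
    rw [h1, h2, cond_true, cond_false, pair_negV]
  · rw [Nat.ble_eq_true_of_le le_rfl, cond_true, phiU_diag j hj]; simp [negV]
  · have h1 : Nat.ble k j = true := Nat.ble_eq_true_of_le h.le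
    have h2 : Nat.ble j k = false := by
      cases e : Nat.ble j k
      · rfl
      · exact absurd (Nat.le_of_ble_eq_true e) (by omega)
    rw [h1, h2, cond_true, cond_false, pair_negV, neg_neg]

lemma isTab50 (y : Fin 8 → A) : IsTab (y 0) (y 1) (mon50 y) (mon4 y) (mon22 y) tab50 := by
  simp only [IsTab, tab50, mon4, mon22, forall₂_cons, pair_un, mon50, List.getD_cons_succ,
    List.getD_cons_zero, Forall₂.nil, and_true, one_mul, mul_one, true_and]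
  refine ⟨?_, ?_, ?_⟩ <;> (repeat' constructor) <;> ring

def c28 : Cx := Cx.mk' 38 100 28 20 27

noncomputable def chk0 (c : Cx) (l : ℕ) : Bool :=
  visZ c (vsum (fun k => mulV c (toT c tab50) (toV c (phiL k l)) (toV c (rel k))) 14)

lemma chk0_ok : ∀ l < 14, chk0 c28 l = true := by decide +kernel

theorem rho_phi (y : Fin 8 → A) (l : ℕ) (hl : l < 14) :
    ∑ k ∈ Finset.range 14, rhoA y k * phiA y k l = 0 := by
  have hc : c28.Ok := Cx.mk'_ok (by norm_num)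
  have hN : Nil c28 (y 0) (y 1) := fun i j h1 h2 => by
    have e1 : c28.K = 28 := rfl
    have e2 : c28.D = 27 := rfl
    omega
  refine RV.isZ hc hN (es := mon50 y) (RV.vsum 14 fun k _ => ?_) (chk0_ok l hl)
  rw [mul_comm]
  exact RV.mul hc (isTab50 y) (RV.toV hc _ _) (RV.toV hc _ _)

end defs

/-- the universal relations -/
noncomputable def rhoZ (j : ℕ) : PZ := rhoA X j
noncomputable def phiZ (j k : ℕ) : PZ := phiA X j k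

section univ
variable {A : Type*} [CommRing A] (y : Fin 8 → A)

lemma aeval_comp_X : ((aeval y : PZ →ₐ[ℤ] A) : PZ →+* A) ∘ X = y := by funext i; simp

lemma aeval_rhoZ (j : ℕ) : aeval y (rhoZ j) = rhoA y j := by
  have := map_rhoA ((aeval y : PZ →ₐ[ℤ] A) : PZ →+* A) X j
  rwa [aeval_comp_X] at this

lemma aeval_phiZ (j k : ℕ) : aeval y (phiZ j k) = phiA y j k := by
  have := map_phiA ((aeval y : PZ →ₐ[ℤ] A) : PZ →+* A) X j k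
  rwa [aeval_comp_X] at this

lemma pderiv_comp_X (u : Fin 8) : (pderiv u : Derivation ℤ PZ PZ) ∘ X = sgl u := by
  funext i; simp [sgl, pderiv_X, Pi.single_apply]

lemma aeval_pderiv_rhoZ (u : Fin 8) (j : ℕ) :
    aeval y (pderiv u (rhoZ j)) = drho y (sgl u) j := by
  have := map_drho ((aeval y : PZ →ₐ[ℤ] A) : PZ →+* A) X (sgl u) j
  rw [aeval_comp_X, map_sgl] at this
  rw [rhoZ, der_rhoA, pderiv_comp_X]; exact this

end univ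

def y0 : Fin 8 → ℤ := fun i => [0, 1, 0, 0, 1, 3, 0, 1].getD i 0
def ptN (u : Fin 8) (k : ℕ) : ℤ := (List.getD
  [[0, 0, 0, 0, 0, 0, 0, 0, 0, 0, 0, 0, 0, 0], [0, 0, 0, 0, 0, 0, 0, 0, 0, 0, 0, 0, 0, 0], [2, 0,
    0, 0, 0, 0, 0, 0, 0, 0, 0, 0, 0, 0], [2, 0, 3, 0, 0, 0, 0, 0, 0, 0, 0, 0, 0, 0], [1, 0, 2, 0,
    4, 0, 0, 0, 0, 3, 0, 0, 0, 0], [0, 0, 4, 0, 3, 0, 0, 0, 0, 3, 0, 0, 0, 0], [3, 3, 4, 0, 0, 0,
    0, 0, 0, 0, 0, 0, 0, 0], [0, 0, 4, 3, 4, 0, 0, 0, 0, 3, 0, 0, 0, 0]] u []).getD k 0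
def ptN' (j k : ℕ) : ℤ := (List.getD
  [[0, 0, 0, 0, 0, 0, 0, 0, 0, 0, 0, 0, 0, 0], [0, 0, 0, 0, 0, 0, 0, 0, 0, 0, 0, 0, 0, 0], [0, 0,
    0, 0, 0, 0, 0, 0, 0, 0, 0, 0, 0, 0], [0, 0, 0, 0, 0, 0, 0, 0, 0, 0, 0, 0, 0, 0], [0, 0, 0, 0,
    0, 0, 0, 0, 0, 0, 0, 0, 0, 0], [1, 0, 1, 3, 0, 3, 3, 0, 0, 0, 0, 0, 0, 0], [3, 0, 3, 3, 0, 4,
    4, 0, 0, 0, 0, 0, 0, 0], [0, 2, 0, 0, 0, 0, 0, 0, 0, 0, 0, 0, 0, 0], [1, 0, 2, 3, 0, 4, 0, 0,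
    0, 0, 0, 3, 0, 0], [0, 0, 0, 0, 0, 0, 0, 0, 0, 0, 0, 0, 0, 0], [1, 0, 2, 3, 0, 4, 0, 3, 0, 0,
    0, 3, 0, 0], [4, 0, 3, 3, 0, 2, 3, 0, 0, 0, 0, 2, 0, 0], [3, 0, 3, 3, 0, 4, 4, 0, 0, 0, 0, 3,
    0, 0], [3, 0, 0, 2, 0, 4, 3, 0, 0, 0, 0, 1, 0, 0]] j []).getD k 0

lemma pt_ok0 : ∀ j < 14, (5 : ℤ) ∣ rhoA y0 j := by decide +kernel

lemma pt_ok1 : ∀ j < 14, ∀ k < 14, (5 : ℤ) ∣ ∑ u : Fin 8, drho y0 (sgl u) j * ptN u k
    + ∑ l ∈ Finset.range 14, ptN' j l * phiA y0 k l - if j = k then 1 else 0 := by decide +kernel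

def CL : List (List ℤ) :=
  [[-106, 0, 0, 0, 0, 0, 0, 0, 0, 0, 0, 0, 0, 0], [0, 0, 0, 0, -106, 0, 0, 0, 0, 0, 0, 0, 0, 0],
    [0, 0, 0, 106, 0, 0, 0, 0, 0, 0, 0, 0, 0, 0], [0, -106, 0, 0, 0, 0, 0, 0, 0, 0, 0, 0, 0, 0],
    [0, 0, -106, 0, 0, 0, 0, 0, 0, 0, 0, 0, 0, 0], [0, 0, 0, 0, 1, 0, 0, 0, 0, 0, 0, 3, 0, 0], [0,
    0, 0, 0, 0, 0, 0, 0, 106, 0, 0, 0, 0, 0], [0, 0, 0, 0, 0, 0, 0, 0, 0, 106, 0, 0, 0, 0], [0, 0,
    0, 0, 0, 0, 0, 106, 0, 0, 0, 0, 0, 0], [0, 0, 0, 0, 1, 0, 0, 0, 0, 0, 0, 0, 3, 0], [0, 0, 0,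
    0, 0, 0, 0, 0, 0, 0, 106, 0, 0, 0], [0, 0, 0, 25122, 0, 318, 0, 0, 0, 0, 0, 0, 0, 0], [0, 0,
    25122, 0, 0, 0, 318, 0, 0, 0, 0, 0, 0, 0], [0, 0, 0, 0, 0, 0, 0, 0, 0, 0, 0, 0, 0, 106]]

def CR : List (List ℤ) :=
  [[0, 0, 0, 0, 318, 0, 0, 0, 0, 0, 0, 0, 0, 0, 0, 0, 0, 0, 0, 0, 0, 0], [0, 0, 0, 0, 0, 318, 0,
    0, 0, 215697492, 0, 0, 0, 0, 0, 0, 0, 0, 0, 0, 0, 0], [0, 0, 0, 0, 0, 0, 318, 0, 0, 0, 0, 0,
    0, 0, 0, 0, 0, 0, 0, 0, 0, 0], [0, 0, 0, 0, 0, 0, 0, 318, 0, 0, 0, 0, 0, 0, 0, 0, 0, 0, 0, 0,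
    0, 0], [0, 0, 0, 0, 0, 0, 0, 0, 318, 0, 0, 0, 0, 0, 0, 0, 0, 0, 0, 0, 0, 0], [0, 0, 0, 0, 0,
    0, 0, 0, 0, -2034882, 0, 318, 0, 0, 0, 0, 0, 0, 0, 0, 0, 0], [0, 0, 0, 0, 0, 0, 0, 0, 0, 0, 0,
    0, 318, 0, 0, 0, 0, 0, 0, 0, 0, 0], [0, 0, 0, 0, 0, 0, 0, 0, 0, 0, 0, 0, 0, 318, 0, 0, 0, 0,
    0, 0, 0, 0], [0, 0, 0, 0, 0, 0, 0, 0, 0, 0, 0, 0, 0, 0, 0, 318, 0, 0, 0, 0, 0, 0], [0, 0, 0,
    0, 0, 0, 0, 0, 0, -2034882, 0, 0, 0, 0, 0, 0, 318, 0, 0, 0, 0, 0], [0, 0, 0, 0, 0, 0, 0, 0, 0,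
    0, 0, 0, 0, 0, 0, 0, 0, 318, 0, 0, 0, 0], [0, 0, 0, 0, 0, 0, 0, 0, 0, 0, 0, 0, 0, 0, 0, 0, 0,
    0, 0, 318, 0, 0], [0, 0, 0, 0, 0, 0, 0, 0, 0, 0, 0, 0, 0, 0, 0, 0, 0, 0, 0, 0, 318, 0], [0, 0,
    0, 0, 0, 0, 0, 0, 0, 0, 0, 0, 0, 0, 0, 0, 0, 0, 0, 0, 0, 318]]

noncomputable def relL : List (List TL) := (List.range 14).map rel

lemma CR_eq : CL.map (fun C => icomb C (relL.map (·.map cst))) = CR := by decide +kernel

end Crest.Agent.R278
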