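import Crest.Agent.R278.Eng

/-! Soundness of the reflection engine. -/

set_option autoImplicit false
namespace Crest.Agent.R278
open Finset

variable {Q : Type*} [CommRing Q]

def rho (c : Cx) : ℚ := ((2 : ℚ) ^ c.cb)⁻¹

lemma rho_pos (c : Cx) : 0 < rho c := by unfold rho; positivity

def Rep (c : Cx) (f g : Q) (x : Q) (a : KV) : Prop :=
  ∃ p : TL, x = ev f g p ∧
    (a.v : ZMod c.m) = ev ((c.Y : ZMod c.m) ^ (c.S + 1)) ((c.Y : ZMod c.m) ^ c.S) p ∧
    nrm (rho c) p ≤ a.b ∧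
    ∀ t ∈ p, t.2.1 + t.2.2 ≤ a.d ∧ (a.w < 7 → ex c.S t.2.1 t.2.2 % 7 = a.w)

variable {c : Cx} {f g : Q}

lemma Rep.zero : Rep c f g 0 kz := ⟨[], rfl, by simp [kz], by simp [nrm, labs, kz], by simp⟩

lemma Rep.eq_zero {x : Q} {a : KV} (h : Rep c f g x a) (hb : a.b = 0) : x = 0 := by
  obtain ⟨p, rfl, -, h, -⟩ := h
  exact ev_eq_zero_of_nrm f g (rho_pos c) p (by simpa [hb] using h)

lemma Rep.add {x y : Q} {a b : KV} (ha : Rep c f g x a) (hb : Rep c f g y b) :
    Rep c f g (x + y) (kadd a b) := by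
  obtain ⟨v1, b1, w1, d1⟩ := a
  obtain ⟨v2, b2, w2, d2⟩ := b
  simp only [kadd]
  cases h1 : Nat.beq b1 0
  swap
  · rw [ha.eq_zero (Nat.eq_of_beq_eq_true h1), zero_add]; exact hb
  cases h2 : Nat.beq b2 0
  swap
  · rw [hb.eq_zero (Nat.eq_of_beq_eq_true h2), add_zero]; exact ha
  obtain ⟨p, rfl, hp1, hp2, hp3⟩ := ha
  obtain ⟨q, rfl, hq1, hq2, hq3⟩ := hb
  simp only [cond_false, mkF_eq] at *
  refine ⟨p ++ q, (ev_append ..).symm, ?_, ?_, ?_⟩
  · rw [ev_append, ← hp1, ← hq1]; simp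
  · simp only [nrm, labs_append, ev_append] at *
    simp only [Nat.add_eq, Nat.cast_add]; linarith
  · intro t ht
    have e1 := le_nmax_left d1 d2
    have e2 := le_nmax_right d1 d2
    cases h : Nat.beq w1 w2
    · rcases List.mem_append.1 ht with ht | ht
      · exact ⟨(hp3 t ht).1.trans e1, by simp⟩
      · exact ⟨(hq3 t ht).1.trans e2, by simp⟩
    · have := Nat.eq_of_beq_eq_true h
      subst this
      rcases List.mem_append.1 ht with ht | ht
      · exact ⟨(hp3 t ht).1.trans e1, by simpa using (hp3 t ht).2⟩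
      · exact ⟨(hq3 t ht).1.trans e2, by simpa using (hq3 t ht).2⟩

lemma ex_add (S a b a' b' : ℕ) : ex S (a + a') (b + b') = ex S a b + ex S a' b' := by
  simp only [ex, Nat.add_eq, Nat.mul_eq]; ring

lemma ex_eq (S a b : ℕ) : ex S a b = S * (a + b) + a := by
  simp only [ex, Nat.add_eq, Nat.mul_eq, Nat.succ_eq_add_one]; ring

lemma Rep.mul {x y : Q} {a b : KV} (ha : Rep c f g x a) (hb : Rep c f g y b) :
    Rep c f g (x * y) (kmul c.m a b) := by
  obtain ⟨v1, b1, w1, d1⟩ := a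
  obtain ⟨v2, b2, w2, d2⟩ := b
  simp only [kmul]
  cases h1 : Nat.beq b1 0
  swap
  · rw [ha.eq_zero (Nat.eq_of_beq_eq_true h1), zero_mul]; exact Rep.zero
  cases h2 : Nat.beq b2 0
  swap
  · rw [hb.eq_zero (Nat.eq_of_beq_eq_true h2), mul_zero]; exact Rep.zero
  obtain ⟨p, rfl, hp1, hp2, hp3⟩ := ha
  obtain ⟨q, rfl, hq1, hq2, hq3⟩ := hb
  simp only [cond_false, mkF_eq] at *
  refine ⟨lmul p q, (ev_lmul ..).symm, ?_, ?_, ?_⟩
  · rw [ev_lmul, ← hp1, ← hq1]
    show (((v1 * v2) % c.m : ℕ) : ZMod c.m) = _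
    rw [ZMod.natCast_mod]; simp
  · have e1 := nrm_nonneg (rho_pos c).le p
    have e2 := nrm_nonneg (rho_pos c).le q
    simp only [nrm, labs_lmul, ev_lmul] at *
    simp only [Nat.mul_eq, Nat.cast_mul]
    exact mul_le_mul hp2 hq2 e2 (e1.trans hp2)
  · intro u hu
    obtain ⟨s, hs, t, ht, rfl⟩ := mem_lmul hu
    have e1 := hp3 s hs
    have e2 := hq3 t ht
    refine ⟨by simp only [tmul, Nat.add_eq]; omega, ?_⟩
    have e3 := le_nmax_left w1 w2
    have e4 := le_nmax_right w1 w2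
    cases h : Nat.ble 7 (nmax w1 w2)
    · have : ¬ 7 ≤ nmax w1 w2 := fun h' => by rw [Nat.ble_eq_true_of_le h'] at h; cases h
      intro _
      simp only [tmul, ex_add, cond_false]
      show _ = (w1 + w2) % 7
      rw [Nat.add_mod, e1.2 (by omega), e2.2 (by omega)]
    · simp

lemma nrm_term (c : Cx) (n d : ℕ) :
    (n : ℚ) * rho c ^ d ≤ ((Nat.succ (Nat.shiftRight n (Nat.mul c.cb d)) : ℕ) : ℚ) := by
  have h : n < (n / 2 ^ (c.cb * d) + 1) * 2 ^ (c.cb * d) := by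
    rw [← Nat.div_lt_iff_lt_mul (by positivity)]; omega
  have h' : (n : ℚ) < ((n / 2 ^ (c.cb * d) + 1 : ℕ) : ℚ) * 2 ^ (c.cb * d) := by exact_mod_cast h
  have e : Nat.succ (Nat.shiftRight n (Nat.mul c.cb d)) = n / 2 ^ (c.cb * d) + 1 := by
    show (n >>> (c.cb * d)) + 1 = _
    rw [Nat.shiftRight_eq_div_pow]
  rw [e, rho, inv_pow, ← pow_mul, mul_inv_le_iff₀ (by positivity)]
  exact h'.le

lemma ev_one_term (Y : Q) (S : ℕ) (z : ℤ) (a b : ℕ) :
    ev (Y ^ (S + 1)) (Y ^ S) [(z, a, b)] = z * Y ^ ex S a b := by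
  simp only [ev_cons, ev_nil, ex, Nat.add_eq, Nat.mul_eq, Nat.succ_eq_add_one, pow_add, pow_mul]
  ring

lemma Rep.term (hc : c.Ok) (t : Tm) :
    Rep c f g ((t.1 : Q) * f ^ t.2.1 * g ^ t.2.2) (kterm c t) := by
  obtain ⟨z, a, b⟩ := t
  have hm : 0 < c.m := by rw [hc.2.2]; exact pow_pos hc.2.1 _
  refine ⟨[(z, a, b)], by simp, ?_, ?_, ?_⟩
  · rw [ev_one_term]
    cases z with
    | ofNat n => simp [kterm]
    | negSucc n =>
      simp only [kterm, mkF_eq]
      show ((c.m - ((n + 1) * c.Y ^ ex c.S a b) % c.m : ℕ) : ZMod c.m) = _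
      rw [Nat.cast_sub (Nat.mod_lt _ hm).le, ZMod.natCast_mod]
      simp [Int.negSucc_eq]; ring
  · rw [nrm_cons]
    cases z with
    | ofNat n =>
      have := nrm_term c n (a + b)
      simpa [kterm, nrm, labs] using this
    | negSucc n =>
      have := nrm_term c (n + 1) (a + b)
      have e : |Int.negSucc n| = ((n + 1 : ℕ) : ℤ) := rfl
      simp only [e, kterm, mkF_eq]
      simpa [nrm, labs] using this
  · intro t ht
    rw [List.mem_singleton] at ht
    subst ht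
    cases z <;> simp [kterm] <;> intros <;> rfl

lemma Rep.toK (hc : c.Ok) (l : TL) : Rep c f g (ev f g l) (toK c l) := by
  induction l with
  | nil => exact Rep.zero
  | cons t l ih => exact (Rep.term hc t).add ih

lemma digits_zero (β : ℤ) (hβ : 0 < β) : ∀ (m : ℕ) (γ : ℕ → ℤ), (∀ i < m, |γ i| < β) →
    β ^ m ∣ ∑ i ∈ range m, γ i * β ^ i → ∀ i < m, γ i = 0 := by
  intro m
  induction m with
  | zero => intro γ _ _ i hi; omega
  | succ m ih =>
    intro γ h1 h2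
    have e : ∑ i ∈ range (m + 1), γ i * β ^ i = β * (∑ i ∈ range m, γ (i + 1) * β ^ i) + γ 0 := by
      rw [sum_range_succ', mul_sum]; simp only [pow_zero, mul_one]
      congr 1; exact sum_congr rfl fun i _ => by ring
    rw [e] at h2
    have h0 : γ 0 = 0 := by
      have : β ∣ γ 0 := (dvd_add_right (dvd_mul_right _ _)).1 ((dvd_pow_self β (by omega)).trans h2)
      exact Int.eq_zero_of_abs_lt_dvd this (h1 0 (by omega))
    rw [h0, add_zero, pow_succ', mul_dvd_mul_iff_left hβ.ne'] at h2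
    have := ih (fun i => γ (i + 1)) (fun i hi => h1 _ (by omega)) h2
    intro i hi
    cases i with
    | zero => exact h0
    | succ i => exact this i (by omega)

def gam (S K w i : ℕ) : TL → ℤ
  | [] => 0
  | t :: p => (if t.2.1 + t.2.2 < K ∧ ex S t.2.1 t.2.2 = w + 7 * i then t.1 else 0) + gam S K w i p

lemma ev_eq_gam {Q : Type*} [CommRing Q] (f g : Q) (S K w m : ℕ) (μ : ℕ → Q) (p : TL)
    (h : ∀ t ∈ p, (t.2.1 + t.2.2 < K → ∃ i < m, ex S t.2.1 t.2.2 = w + 7 * i ∧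
      f ^ t.2.1 * g ^ t.2.2 = μ i) ∧ (K ≤ t.2.1 + t.2.2 → f ^ t.2.1 * g ^ t.2.2 = 0)) :
    ev f g p = ∑ i ∈ range m, (gam S K w i p : Q) * μ i := by
  induction p with
  | nil => simp [gam]
  | cons t p ih =>
    rw [ev_cons, ih fun t ht => h t (by simp [ht])]
    simp only [gam, Int.cast_add, add_mul, sum_add_distrib]
    congr 1
    obtain ⟨h1, h2⟩ := h t (by simp)
    by_cases hK : t.2.1 + t.2.2 < K
    · obtain ⟨i, hi, e1, e2⟩ := h1 hK
      rw [sum_eq_single i]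
      · simp [hK, e1, ← e2, mul_assoc]
      · intro j _ hj
        have : ¬ (ex S t.2.1 t.2.2 = w + 7 * j) := by omega
        simp [this]
      · intro h'; simp [hi] at h'
    · simp [hK, mul_assoc, h2 (by omega)]

lemma abs_gam_le (c : Cx) (w i : ℕ) (p : TL) :
    ((|gam c.S c.K w i p| : ℤ) : ℚ) ≤ nrm (rho c) p * 2 ^ (c.cb * c.K) := by
  induction p with
  | nil => simp [gam, nrm, labs]
  | cons t p ih =>
    rw [nrm_cons, add_mul, gam]
    have h1 : ((|if t.2.1 + t.2.2 < c.K ∧ ex c.S t.2.1 t.2.2 = w + 7 * i then t.1 else 0| : ℤ) : ℚ)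
        ≤ ((|t.1| : ℤ) : ℚ) * rho c ^ (t.2.1 + t.2.2) * 2 ^ (c.cb * c.K) := by
      split_ifs with h
      · rw [mul_assoc]
        refine le_mul_of_one_le_right (by positivity) ?_
        rw [rho, inv_pow, ← pow_mul, ← div_eq_inv_mul, one_le_div (by positivity)]
        exact pow_le_pow_right₀ (by norm_num) (Nat.mul_le_mul_left _ h.1.le)
      · have := rho_pos c
        simp only [abs_zero, Int.cast_zero]; positivity
    refine le_trans ?_ (add_le_add h1 ih)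
    exact_mod_cast abs_add_le _ _

/-- the nilpotency hypothesis -/
def Nil (c : Cx) (f g : Q) : Prop := ∀ i j, c.K ≤ i + j → i + j ≤ c.D → f ^ i * g ^ j = 0

lemma Rep.isZ (hc : c.Ok) (hN : Nil c f g) {x : Q} {a : KV} (ha : Rep c f g x a)
    (hz : kisZ c a = true) : x = 0 := by
  obtain ⟨v, b, w, d⟩ := a
  simp only [kisZ, Bool.or_eq_true, Bool.and_eq_true] at hz
  rcases hz with hz | ⟨⟨⟨h1, h2⟩, h3⟩, h4⟩
  · exact ha.eq_zero (Nat.eq_of_beq_eq_true hz)
  obtain ⟨p, rfl, hp1, hp2, hp3⟩ := ha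
  obtain ⟨hS, hY, hm⟩ := hc
  replace h1 : v % c.m = 0 := Nat.eq_of_beq_eq_true h1
  replace h2 : w ≤ 6 := Nat.le_of_ble_eq_true h2
  replace h3 : d ≤ c.D := Nat.le_of_ble_eq_true h3
  replace h4 : b <<< (c.cb * c.K) < c.Y ^ 7 := Nat.le_of_ble_eq_true h4
  rw [Nat.shiftLeft_eq] at h4
  simp only at hp1 hp2 hp3
  set m := (c.S * c.K - w) / 7 with hmdef
  have key : ∀ t ∈ p, t.2.1 + t.2.2 < c.K → ∃ i < m, ex c.S t.2.1 t.2.2 = w + 7 * i := by
    intro t ht hK
    have e1 := (hp3 t ht).2 (by omega)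
    have e2 : ex c.S t.2.1 t.2.2 + 7 ≤ c.S * c.K := by
      rw [ex_eq]
      obtain ⟨k, hk⟩ : ∃ k, c.K = t.2.1 + t.2.2 + 1 + k := ⟨c.K - (t.2.1 + t.2.2 + 1), by omega⟩
      have : c.S * (t.2.1 + t.2.2 + 1) ≤ c.S * c.K := Nat.mul_le_mul_left _ (by omega)
      rw [mul_add_one] at this
      omega
    exact ⟨ex c.S t.2.1 t.2.2 / 7, by omega, by omega⟩
  have hg : ∀ i < m, gam c.S c.K w i p = 0 := by
    apply digits_zero ((c.Y : ℤ) ^ 7) (by positivity)
    · intro i _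
      have := abs_gam_le c w i p
      have h5 : nrm (rho c) p * 2 ^ (c.cb * c.K) ≤ (b : ℚ) * 2 ^ (c.cb * c.K) := by gcongr
      have h6 : (b : ℚ) * 2 ^ (c.cb * c.K) < (c.Y : ℚ) ^ 7 := by exact_mod_cast h4
      exact_mod_cast (this.trans h5).trans_lt h6
    · have e := ev_eq_gam ((c.Y : ZMod c.m) ^ (c.S + 1)) ((c.Y : ZMod c.m) ^ c.S) c.S c.K w m
        (fun i => (c.Y : ZMod c.m) ^ (w + 7 * i)) p (by
          intro t ht
          have e0 : ((c.Y : ZMod c.m) ^ (c.S + 1)) ^ t.2.1 * ((c.Y : ZMod c.m) ^ c.S) ^ t.2.2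
              = (c.Y : ZMod c.m) ^ ex c.S t.2.1 t.2.2 := by
            simp only [ex, Nat.add_eq, Nat.mul_eq, Nat.succ_eq_add_one, pow_add, pow_mul]
          refine ⟨fun hK => ?_, fun hK => ?_⟩
          · obtain ⟨i, hi, e⟩ := key t ht hK
            exact ⟨i, hi, e, by rw [e0, e]⟩
          · have : c.S * c.K ≤ ex c.S t.2.1 t.2.2 := by
              rw [ex_eq]; exact (Nat.mul_le_mul_left _ hK).trans (by omega)
            obtain ⟨k, hk⟩ := Nat.exists_eq_add_of_le this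
            rw [e0, hk, pow_add, ← Nat.cast_pow, ← hm]; simp)
      rw [← hp1, ← ZMod.natCast_mod, h1] at e
      have e2 : (((c.Y : ℤ) ^ w * ∑ i ∈ range m, gam c.S c.K w i p * ((c.Y : ℤ) ^ 7) ^ i : ℤ) :
          ZMod c.m) = 0 := by
        push_cast
        rw [mul_sum, ← Nat.cast_zero (R := ZMod c.m), e]
        exact sum_congr rfl fun i _ => by ring
      rw [ZMod.intCast_zmod_eq_zero_iff_dvd, hm] at e2
      by_cases hw : w ≤ c.S * c.K
      · have e3 : (c.Y : ℤ) ^ w * ((c.Y : ℤ) ^ 7) ^ m ∣ ((c.Y ^ (c.S * c.K) : ℕ) : ℤ) := by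
          push_cast; rw [← pow_mul, ← pow_add]; exact pow_dvd_pow _ (by omega)
        exact (mul_dvd_mul_iff_left (by positivity)).1 (e3.trans e2)
      · have : m = 0 := by omega
        simp [this]
  rw [ev_eq_gam f g c.S c.K w m (fun i => f ^ ((w + 7 * i) % c.S) *
    g ^ ((w + 7 * i) / c.S - (w + 7 * i) % c.S)) p]
  · exact sum_eq_zero fun i hi => by simp [hg i (mem_range.1 hi)]
  · intro t ht
    refine ⟨fun hK => ?_, fun hK => hN _ _ hK ((hp3 t ht).1.trans h3)⟩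
    obtain ⟨i, hi, e⟩ := key t ht hK
    refine ⟨i, hi, e, ?_⟩
    have hlt : t.2.1 < c.S := by omega
    simp only [← e, ex_eq]
    rw [Nat.mul_add_mod, Nat.mod_eq_of_lt hlt, Nat.mul_add_div (by omega), Nat.div_eq_of_lt hlt]
    simp

end Crest.Agent.R278
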