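import Crest.Agent.R278.Int
import Crest.Agent.R278.Exp

/-! The S2-closure `S0 B` of a subring `B`, localised at the origin. -/

set_option autoImplicit false
set_option linter.unusedSectionVars false
namespace Crest.Agent.R278
open MvPolynomial

variable {K : Type} [Field K] [Algebra ℂ K] [Algebra P K] [IsScalarTower ℂ P K]
  [Algebra F K] [IsScalarTower P F K] [FiniteDimensional F K]

lemma smul_mem_of_dvd {B : Subalgebra P K} {s t : P} {c : K} (h : s • c ∈ B) (hd : s ∣ t) :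
    t • c ∈ B := by
  obtain ⟨u, rfl⟩ := hd
  rw [mul_comm, mul_smul]; exact B.smul_mem h u

def S0 (B : Subalgebra P K) : Subalgebra P K where
  carrier := {c | ∃ s : P, s ∉ nn ∧ ∃ k : ℕ, ∀ i : Fin 2, (s * X i ^ k) • c ∈ B}
  mul_mem' := by
    rintro a b ⟨s, hs, k, ha⟩ ⟨t, ht, l, hb⟩
    refine ⟨s * t, mul_notMem_nn hs ht, k + l, fun i => ?_⟩
    have := B.mul_mem (ha i) (hb i)
    rwa [smul_mul_smul_comm, mul_mul_mul_comm, ← pow_add] at this
  add_mem' := by
    rintro a b ⟨s, hs, k, ha⟩ ⟨t, ht, l, hb⟩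
    refine ⟨s * t, mul_notMem_nn hs ht, k + l, fun i => ?_⟩
    rw [smul_add]
    exact B.add_mem (smul_mem_of_dvd (ha i) ⟨t * X i ^ l, by ring⟩)
      (smul_mem_of_dvd (hb i) ⟨s * X i ^ k, by ring⟩)
  algebraMap_mem' := fun p => ⟨1, one_notMem_nn, 0, fun i => B.smul_mem (B.algebraMap_mem p) _⟩

lemma le_S0 (B : Subalgebra P K) : B ≤ S0 B :=
  fun _ ha => ⟨1, one_notMem_nn, 0, fun _ => B.smul_mem ha _⟩

lemma map_ne_zero_of_notMem {s : P} (hs : s ∉ nn) : algebraMap P K s ≠ 0 :=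
  fun h => hs (by rw [(map_eq_zero_iff _ D.inj).1 h]; exact zero_mem _)

lemma inv_mem_S0 (B : Subalgebra P K) (s : P) (hs : s ∉ nn) : (algebraMap P K s)⁻¹ ∈ S0 B :=
  ⟨s, hs, 0, fun _ => by
    rw [pow_zero, mul_one, Algebra.smul_def, mul_inv_cancel₀ (map_ne_zero_of_notMem hs)]
    exact B.one_mem⟩

lemma mem_RR_of_smul {s : P} (hs : s ∉ nn) {c : K} (h : s • c ∈ RR K) : c ∈ RR K := by
  have := (RR K).mul_mem (inv_mem_RR s hs) h
  rwa [Algebra.smul_def, inv_mul_cancel_left₀ (map_ne_zero_of_notMem hs)] at this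

lemma mem_RR_of_smul_pow {s : P} (hs : s ∉ nn) {k : ℕ} {c : K}
    (h : ∀ i : Fin 2, (s * X i ^ k) • c ∈ RR K) : c ∈ RR K := by
  have : ∀ i : Fin 2, algebraMap P K (X i) ^ k * c ∈ RR K := fun i => by
    rw [← map_pow, ← Algebra.smul_def]
    exact mem_RR_of_smul hs (by rw [smul_smul]; exact h i)
  exact mem_RR_of_pow_mul c k (this 0) (this 1)

lemma S0_le {B : Subalgebra P K} (hB : B ≤ RR K) : S0 B ≤ RR K := by
  rintro c ⟨s, hs, k, h⟩
  exact mem_RR_of_smul_pow hs fun i => hB (h i)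

lemma mem_S0_of_pow_mul {B : Subalgebra P K} (c : K) (k : ℕ)
    (h0 : algebraMap P K (X 0) ^ k * c ∈ S0 B) (h1 : algebraMap P K (X 1) ^ k * c ∈ S0 B) :
    c ∈ S0 B := by
  obtain ⟨s, hs, a, h0⟩ := h0
  obtain ⟨t, ht, b, h1⟩ := h1
  replace h0 := h0 0
  replace h1 := h1 1
  rw [← map_pow, ← Algebra.smul_def, smul_smul] at h0 h1
  refine ⟨s * t, mul_notMem_nn hs ht, a + b + k, fun i => ?_⟩
  fin_cases i
  · exact smul_mem_of_dvd h0 ⟨t * X 0 ^ b, by simp only [Fin.zero_eta]; ring⟩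
  · exact smul_mem_of_dvd h1 ⟨s * X 1 ^ a, by simp only [Fin.mk_one]; ring⟩

lemma X_ne_zero' (i : Fin 2) : algebraMap P K (X i) ≠ 0 :=
  (map_ne_zero_iff _ D.inj).2 (X_ne_zero i)

lemma dvd_of_S2 (T : Subalgebra P K) {f g : T} (hf : (f : K) ≠ 0)
    (h : ∀ (c : K) (k : ℕ), (f : K) ^ k * c ∈ T → (g : K) ^ k * c ∈ T → c ∈ T) (a : T) (k : ℕ)
    (hd : f ∣ a * g ^ k) : f ∣ a := by
  obtain ⟨q, hq⟩ := hd
  have hq' : (a : K) * g ^ k = f * q := by exact_mod_cast congrArg Subtype.val hq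
  refine ⟨⟨a / f, h _ (k + 1) ?_ ?_⟩, Subtype.ext ?_⟩
  · have : (f : K) ^ (k + 1) * (a / f) = f ^ k * a := by field_simp; ring
    rw [this]; exact T.mul_mem (T.pow_mem f.2 k) a.2
  · have : (g : K) ^ (k + 1) * (a / f) = g * q := by field_simp; linear_combination (g : K) * hq'
    rw [this]; exact T.mul_mem g.2 q.2
  · show (a : K) = f * (a / f)
    field_simp

lemma int_unit (T : Subalgebra P K) (n : ℤ) (hn : n ≠ 0) : IsUnit (n : T) := by
  have : IsUnit (n : ℂ) := IsUnit.mk0 _ (by exact_mod_cast hn)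
  simpa using (this.map (C : ℂ →+* P)).map (algebraMap P T)

lemma der_P_mem (T : Subalgebra P K) (D : Derivation ℂ K K)
    (h : ∀ i, D (algebraMap P K (X i)) ∈ T) (p : P) : D (algebraMap P K p) ∈ T := by
  induction p using MvPolynomial.induction_on with
  | C a =>
    rw [← algebraMap_eq, ← IsScalarTower.algebraMap_apply, Derivation.map_algebraMap]
    exact T.zero_mem
  | add p q hp hq => rw [map_add, map_add]; exact T.add_mem hp hq
  | mul_X p i hp =>
    rw [map_mul, Derivation.leibniz]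
    exact T.add_mem (T.mul_mem (T.algebraMap_mem _) (h i)) (T.mul_mem (T.algebraMap_mem _) hp)

/-- Seidenberg applied to `s f^k v` and `s g^k v` -/
theorem der_RR (Y : Finset K) (hY : ∀ x ∈ Y, x ∈ RR K)
    (hfrac : ∀ a : K, ∃ c : P, c ≠ 0 ∧ c • a ∈ Algebra.adjoin P (Y : Set K))
    (v : Derivation ℂ K K) (h1 : ∀ i, v (algebraMap P K (X i)) ∈ S0 (Algebra.adjoin P (Y : Set K)))
    (h2 : ∀ x ∈ Y, v x ∈ S0 (Algebra.adjoin P (Y : Set K))) (a : K) (ha : a ∈ RR K) :
    v a ∈ RR K := by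
  classical
  set B := Algebra.adjoin P (Y : Set K) with hB
  have hBR : B ≤ RR K := Algebra.adjoin_le hY
  have common : ∀ Z : Finset K, (∀ x ∈ Z, x ∈ S0 B) →
      ∃ s : P, s ∉ nn ∧ ∃ k : ℕ, ∀ x ∈ Z, ∀ i : Fin 2, (s * X i ^ k) • x ∈ B := by
    intro Z
    induction Z using Finset.induction_on with
    | empty => exact fun _ => ⟨1, one_notMem_nn, 0, by simp⟩
    | insert z Z _ ih =>
      intro h
      obtain ⟨s, hs, k, hk⟩ := ih fun x hx => h x (by simp [hx])
      obtain ⟨t, ht, l, hl⟩ := h z (by simp)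
      refine ⟨s * t, mul_notMem_nn hs ht, k + l, fun x hx i => ?_⟩
      rcases Finset.mem_insert.1 hx with rfl | hx
      · exact smul_mem_of_dvd (hl i) ⟨s * X i ^ k, by ring⟩
      · exact smul_mem_of_dvd (hk x hx i) ⟨t * X i ^ l, by ring⟩
  obtain ⟨s, hs, k, hk⟩ := common (Y.image v ∪ Finset.univ.image fun i => v (algebraMap P K (X i)))
    (by
      intro x hx
      simp only [Finset.mem_union, Finset.mem_image] at hx
      rcases hx with ⟨x, hx, rfl⟩ | ⟨i, -, rfl⟩
      exacts [h2 x hx, h1 i])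
  have hN : IsNoetherianRing B := isNoetherianRing_of_fg ⟨Y, rfl⟩
  have hN' : IsNoetherianRing (B.restrictScalars ℂ) := hN
  obtain ⟨t, ht, ha'⟩ := ha
  have key : v (t • a) ∈ RR K := by
    refine mem_RR_of_smul_pow hs (k := k) fun i => ?_
    set D : Derivation ℂ K K := algebraMap P K (s * X i ^ k) • v with hD
    have hDa : ∀ x, D x = (s * X i ^ k) • v x := fun x => by
      rw [hD, Derivation.smul_apply, smul_eq_mul, Algebra.smul_def]
    have hDB : ∀ b ∈ B, D b ∈ B := by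
      intro b hb
      induction hb using Algebra.adjoin_induction with
      | mem x hx => rw [hDa]; exact hk _ (by simp; exact Or.inl ⟨x, hx, rfl⟩) i
      | algebraMap p =>
        exact der_P_mem B D (fun j => by rw [hDa]; exact hk _ (by simp) i) p
      | add x y _ _ hx hy => rw [map_add]; exact B.add_mem hx hy
      | mul x y hx' hy' hx hy =>
        rw [Derivation.leibniz]; exact B.add_mem (B.mul_mem hx' hy) (B.mul_mem hy' hx)
    have h3 : IsIntegral B (D (t • a)) := seidenberg (B.restrictScalars ℂ) (fun x => by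
      obtain ⟨c, hc, hx⟩ := hfrac x
      exact ⟨algebraMap P K c, B.algebraMap_mem c, (map_ne_zero_iff _ R278.D.inj).2 hc,
        by rw [← Algebra.smul_def]; exact hx⟩) D hDB _ (ha'.tower_top (A := B))
    rw [← hDa]
    exact mem_RR_of_isIntegral _
      (h3.map_of_comp_eq (Subalgebra.inclusion hBR).toRingHom (RingHom.id K) rfl)
  rw [Algebra.smul_def, Derivation.leibniz, smul_eq_mul, smul_eq_mul, ← Algebra.smul_def] at key
  refine mem_RR_of_smul ht ?_
  have := (RR K).sub_mem key ((RR K).mul_mem ⟨t, ht, ha'⟩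
    (der_P_mem (RR K) v (fun i => S0_le hBR (h1 i)) t))
  rwa [add_sub_cancel_right] at this

end Crest.Agent.R278
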