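import Crest.Agent.R278.Model
import Crest.Agent.R278.Data2

/-! The multiplication table modulo `(f,g)^20`. -/

set_option autoImplicit false
set_option maxRecDepth 100000
namespace Crest.Agent.R278
open Finset List

variable {Q : Type*} [CommRing Q]

lemma nil_of_pow (c : Cx) {f g : Q} (h : Ideal.span {f, g} ^ c.K = ⊥) : Nil c f g := by
  intro i j hij _
  have h1 : f ^ i ∈ Ideal.span {f, g} ^ i := Ideal.pow_mem_pow (Ideal.subset_span (by simp)) _
  have h2 : g ^ j ∈ Ideal.span {f, g} ^ j := Ideal.pow_mem_pow (Ideal.subset_span (by simp)) _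
  have := Ideal.mul_mem_mul h1 h2
  rw [← pow_add] at this
  have := Ideal.pow_le_pow_right hij this
  rwa [h] at this

lemma eq_bot_of_le_smul {I W : Ideal Q} {K : ℕ} (hI : I ^ K = ⊥) (h : W ≤ I • W) : W = ⊥ := by
  have : ∀ n, W ≤ I ^ n * W := by
    intro n
    induction n with
    | zero => simp
    | succ n ih =>
      rw [pow_succ, mul_assoc]
      exact ih.trans (Ideal.mul_mono_right h)
  simpa [hI] using this K

lemma mem_of_int_mul (hu : ∀ n : ℤ, n ≠ 0 → IsUnit (n : Q)) {J : Ideal Q} {n : ℤ} (hn : n ≠ 0)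
    {x : Q} (h : (n : Q) * x ∈ J) : x ∈ J := (Ideal.unit_mul_mem_iff_mem J (hu n hn)).1 h

def c20 : Cx := Cx.mk' 31 75 20 21 1000
lemma c20_ok : c20.Ok := Cx.mk'_ok (by norm_num)

noncomputable def chk1 (c : Cx) (j : ℕ) : Bool :=
  visZ c (comb c.m (toV c (rel j)) (nfL.map (toV c)))

lemma chk1_ok : ∀ j < 14, chk1 c20 j = true := by decide +kernel

variable {y : Fin 8 → Q} (hu : ∀ n : ℤ, n ≠ 0 → IsUnit (n : Q))
  (hI : Ideal.span {y 0, y 1} ^ 20 = ⊥) (hy : ∀ j < 14, rhoA y j = 0)
include hu hI hy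

theorem stage1 : Forall₂ (fun L m => pair (y 0) (y 1) L (bas y) = m) nfL (mon22 y) := by
  have hN : Nil c20 (y 0) (y 1) := nil_of_pow c20 hI
  set vals := nfL.map fun L => pair (y 0) (y 1) L (bas y) with hvals
  set d := zipWith (· - ·) vals (mon22 y) with hd
  have h1 : ∀ L ∈ relL, pair (y 0) (y 1) L d = 0 := by
    intro L hL
    obtain ⟨j, hj, rfl⟩ := List.mem_map.1 hL
    rw [List.mem_range] at hj
    rw [hd, pair_sub _ _ _ _ _ (by rfl), ← rhoA, hy j hj, sub_zero]
    refine RV.isZ c20_ok hN (es := bas y) (RV.comb (RV.toV c20_ok _ _) ?_) (chk1_ok j hj)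
    refine RV.forall₂_toV c20_ok ?_
    rw [hvals, forall₂_map_right_iff]
    exact forall₂_same.2 fun _ _ => rfl
  set W : Ideal Q := Ideal.span {x | x ∈ d} with hW
  set I : Ideal Q := Ideal.span {y 0, y 1}
  have h2 : ∀ R ∈ CR, ipair R d ∈ I • W := by
    intro R hR
    rw [← CR_eq] at hR
    obtain ⟨C, -, rfl⟩ := List.mem_map.1 hR
    exact ipair_icomb_mem (L0 := Q) I (Ideal.subset_span (by simp)) (Ideal.subset_span (by simp))
      W d (fun x hx => Ideal.subset_span hx) C relL h1
  have h3 : W = ⊥ := by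
    refine eq_bot_of_le_smul hI (Ideal.span_le.2 ?_)
    generalize I • W = J at h2 ⊢
    intro x hx
    simp only [hd, hvals, nfL, mon22, List.map_cons, List.map_nil, zipWith_cons_cons, pair_un, bas,
      List.getD_cons_succ, List.getD_cons_zero, sub_self, zipWith_nil_left, CR, List.mem_cons,
      List.not_mem_nil, or_false, forall_eq_or_imp, forall_eq, ipair_cons, ipair_nil, mul_zero,
      Int.cast_zero, zero_mul, zero_add, add_zero, Set.mem_ofPred_eq] at h2 hx
    obtain ⟨a1, a2, a3, a4, a5, a6, a7, a8, a9, a10, a11, a12, a13, a14⟩ := h2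
    rcases hx with h | h | h | h | h | h | h | h | h | h | h | h | h | h | h | h | h | h | h | h |
      h | h <;> subst h <;>
      first
        | exact J.zero_mem
        | (refine mem_of_int_mul hu (n := 318) (by norm_num) ?_; assumption)
  have h4 : ∀ x ∈ d, x = 0 := fun x hx => by
    have : x ∈ W := Ideal.subset_span hx
    rwa [h3] at this
  simp only [hd, hvals, nfL, mon22, List.map_cons, List.map_nil, zipWith_cons_cons,
    zipWith_nil_left, List.mem_cons, List.not_mem_nil, or_false, forall_eq_or_imp, forall_eq,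
    sub_eq_zero] at h4
  simpa only [nfL, mon22, forall₂_cons, Forall₂.nil, and_true] using h4

end Crest.Agent.R278
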