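import Crest.Agent.R278.Tab1

/-! Multiplication by `x₁, x₂, x₃` and the products `zᵢ zⱼ`, modulo `(f,g)^20`. -/

set_option autoImplicit false
set_option maxRecDepth 100000
namespace Crest.Agent.R278
open Finset List

variable {Q : Type*} [CommRing Q]

lemma pair_last (f g u : Q) (k : ℕ) (L : List TL) :
    pair f g L (List.replicate k 0 ++ [u]) = ev f g (L.getD k []) * u := by
  induction k generalizing L with
  | zero => cases L <;> simp
  | succ k ih => cases L with
    | nil => simp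
    | cons l L => simp [List.replicate_succ, ih]

/-- row `T` of the table describes multiplication by `e` -/
def IsRow (y : Fin 8 → Q) (e : Q) (T : List (List TL)) : Prop :=
  Forall₂ (fun L e' => pair (y 0) (y 1) L (bas y) = e * e') T (bas y)

noncomputable def opX (c : Cx) (T : List (List TL)) (v : Vec) : Vec := comb c.m v (T.map (toV c))

lemma chk2a : visZ c20 (vadd (opX c20 tab3 (toV c20 n6)) (toV c20 (negV y1))) = true := by
  decide +kernel
lemma chk2b : visZ c20 (vadd (opX c20 tab3 (toV c20 n8)) (toV c20 (negV y2))) = true := by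
  decide +kernel
lemma chk2c : visZ c20 (vadd (opX c20 tab3 (toV c20 n5)) (opX c20 tab1 (toV c20 (negV n8))))
    = true := by decide +kernel
lemma cst_n5 : cst (n5.getD 7 []) = -678294 := by decide +kernel
lemma cst_n6 : cst (n6.getD 7 []) = 0 := by decide +kernel

lemma RV.opX_vals {c : Cx} (hc : c.Ok) (f g : Q) (es : List Q) (T : List (List TL)) (L : List TL) :
    RV c f g es (opX c T (R278.toV c L)) (pair f g L (T.map fun M => pair f g M es)) := by
  refine RV.comb (RV.toV hc _ _) (RV.forall₂_toV hc ?_)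
  rw [forall₂_map_right_iff]
  exact forall₂_same.2 fun _ _ => rfl

lemma RV.opX {c : Cx} (hc : c.Ok) {y : Fin 8 → Q} {e : Q} {T : List (List TL)} (h : IsRow y e T)
    {v : Vec} {x : Q} (hv : RV c (y 0) (y 1) (bas y) v x) :
    RV c (y 0) (y 1) (bas y) (opX c T v) (e * x) := RV.mulRow hc h hv

lemma IsRow.get {y : Fin 8 → Q} {e : Q} {T : List (List TL)} (h : IsRow y e T) (k : ℕ) :
    pair (y 0) (y 1) (T.getD k []) (bas y) = e * (bas y).getD k 0 := by
  unfold IsRow at h
  generalize bas y = es at h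
  suffices ∀ (T : List (List TL)) (bs : List Q),
      Forall₂ (fun L e' => pair (y 0) (y 1) L es = e * e') T bs → ∀ k,
      pair (y 0) (y 1) (T.getD k []) es = e * bs.getD k 0 from this T es h k
  intro T bs h
  induction h with
  | nil => simp
  | cons h1 _ ih =>
    intro k
    cases k with
    | zero => exact h1
    | succ k => exact ih k

def xm10 (y : Fin 8 → Q) : List Q :=
  [1, y 2, y 3, y 4, y 2 * y 2, y 2 * y 3, y 2 * y 4, y 3 * y 3, y 3 * y 4, y 4 * y 4]

def zm12 (y : Fin 8 → Q) : List Q :=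
  [y 5, y 2 * y 5, y 3 * y 5, y 4 * y 5, y 6, y 2 * y 6, y 3 * y 6, y 4 * y 6, y 7, y 2 * y 7,
    y 3 * y 7, y 4 * y 7]

lemma rL_length : ∀ j < 14, (rL.getD j []).length = 10 := by decide +kernel

lemma rhoA_eq (y : Fin 8 → Q) (j : ℕ) (hj : j < 14) : rhoA y j =
    pair (y 0) (y 1) (rL.getD j []) (xm10 y) + pair (y 0) (y 1) (mL.getD j []) (zm12 y) :=
  pair_append _ _ _ _ (xm10 y) (zm12 y) (rL_length j hj)

noncomputable def mz (c : Cx) (k : ℕ) : List Vec :=
  [toV c (un k), toV c (tab1.getD k []), toV c (tab2.getD k []), toV c (tab3.getD k []),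
    opX c tab1 (toV c (tab1.getD k [])), opX c tab1 (toV c (tab2.getD k [])),
    opX c tab1 (toV c (tab3.getD k [])), opX c tab2 (toV c (tab2.getD k [])),
    opX c tab2 (toV c (tab3.getD k [])), opX c tab3 (toV c (tab3.getD k []))]

noncomputable def chk3 (c : Cx) (j k : ℕ) (l : TL) (t : List TL) : Bool :=
  visZ c (vadd (comb c.m (toV c (rL.getD j [])) (mz c k)) (vsm c.m (toK c l) (toV c t)))

lemma chk3_44 : chk3 c20 0 4 [tp 27 1 0] t44 = true := by decide +kernel
lemma chk3_45 : chk3 c20 0 5 [tp 27 1 0] t45 = true := by decide +kernel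
lemma chk3_46 : chk3 c20 0 6 [tp 27 1 0] t46 = true := by decide +kernel
lemma chk3_55 : chk3 c20 1 5 [tp 27 0 1] t55 = true := by decide +kernel
lemma chk3_56 : chk3 c20 1 6 [tp 27 0 1] t56 = true := by decide +kernel
lemma chk3_66 : chk3 c20 2 6 [tp 162 2 0] t66 = true := by decide +kernel

variable {y : Fin 8 → Q} (hu : ∀ n : ℤ, n ≠ 0 → IsUnit (n : Q))
  (hI : Ideal.span {y 0, y 1} ^ 20 = ⊥) (hy : ∀ j < 14, rhoA y j = 0)
include hu hI hy

theorem stage2 : IsRow y (y 2) tab1 ∧ IsRow y (y 3) tab2 ∧ IsRow y (y 4) tab3 := by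
  have hN : Nil c20 (y 0) (y 1) := nil_of_pow c20 hI
  have h := stage1 hu hI hy
  simp only [nfL, mon22, forall₂_cons, Forall₂.nil, and_true] at h
  obtain ⟨h0, h1, h2, h3, h4, h5, h6, h7, h8, h9, h10, h11, h12, h13, h14, h15, h16, h17, h18, h19,
    h20, h21⟩ := h
  set es := bas y with hes
  set u1 := y 2 * (y 4 * y 4) - pair (y 0) (y 1) y1 es with hu1
  set u2 := y 3 * (y 4 * y 4) - pair (y 0) (y 1) y2 es with hu2
  set u3 := y 4 * (y 4 * y 4) - pair (y 0) (y 1) y3 es with hu3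
  have e1 : ∀ L, y 2 * pair (y 0) (y 1) L es - pair (y 0) (y 1) L
      (tab1.map fun M => pair (y 0) (y 1) M es) = ev (y 0) (y 1) (L.getD 7 []) * u1 := by
    intro L
    rw [mul_pair, ← pair_sub _ _ _ _ _ (by rfl), ← pair_last]
    congr 1
    simp only [tab1, List.map_cons, h1, h4, h5, h6, h11, h15, h19]
    simp [hes, bas, hu1, List.replicate]
  have e3 : ∀ L, y 4 * pair (y 0) (y 1) L es - pair (y 0) (y 1) L
      (tab3.map fun M => pair (y 0) (y 1) M es) = ev (y 0) (y 1) (L.getD 7 []) * u3 := by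
    intro L
    rw [mul_pair, ← pair_sub _ _ _ _ _ (by rfl), ← pair_last]
    congr 1
    simp only [tab3, List.map_cons, h3, h6, h8, h9, h13, h17, h21]
    simp [hes, bas, hu3, List.replicate, mul_comm]
  have a := RV.isZ c20_ok hN ((RV.opX_vals c20_ok _ _ es tab3 n6).add
    (RV.toV c20_ok (negV y1) es)) chk2a
  have b := RV.isZ c20_ok hN ((RV.opX_vals c20_ok _ _ es tab3 n8).add
    (RV.toV c20_ok (negV y2) es)) chk2b
  have c := RV.isZ c20_ok hN ((RV.opX_vals c20_ok _ _ es tab3 n5).add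
    (RV.opX_vals c20_ok _ _ es tab1 (negV n8))) chk2c
  rw [pair_negV] at a b c
  have f1 := e3 n6
  have f2 := e3 n8
  have f3 := e3 n5
  have f4 := e1 n8
  rw [h6] at f1; rw [h8] at f2 f4; rw [h5] at f3
  set I : Ideal Q := Ideal.span {y 0, y 1}
  have g5 := ev_sub_cst I (Ideal.subset_span (by simp)) (Ideal.subset_span (by simp))
    (f := y 0) (g := y 1) (n5.getD 7 [])
  have g6 := ev_sub_cst I (Ideal.subset_span (by simp)) (Ideal.subset_span (by simp))
    (f := y 0) (g := y 1) (n6.getD 7 [])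
  rw [cst_n5] at g5; rw [cst_n6, Int.cast_zero, sub_zero] at g6
  generalize ev (y 0) (y 1) (n5.getD 7 []) = s5 at *
  generalize ev (y 0) (y 1) (n6.getD 7 []) = s6 at *
  generalize ev (y 0) (y 1) (n8.getD 7 []) = s8 at *
  have k1 : u1 = s6 * u3 := by rw [hu1]; linear_combination f1 + a
  have k2 : u2 = s8 * u3 := by rw [hu2]; linear_combination f2 + b
  have k3 : ((-678294 : ℤ) : Q) * u3 = (s8 * s6 - (s5 - ((-678294 : ℤ) : Q))) * u3 := by
    linear_combination f4 - f3 - c + s8 * k1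
  have k4 : Ideal.span {u3} = ⊥ := by
    refine eq_bot_of_le_smul hI ((Ideal.span_singleton_le_iff_mem _).2 ?_)
    refine mem_of_int_mul hu (n := -678294) (by norm_num) ?_
    rw [k3]
    exact Ideal.mul_mem_mul (I.sub_mem (I.mul_mem_left _ g6) g5) (Ideal.mem_span_singleton_self _)
  have z3 : u3 = 0 := Ideal.span_singleton_eq_bot.1 k4
  have z1 : u1 = 0 := by rw [k1, z3, mul_zero]
  have z2 : u2 = 0 := by rw [k2, z3, mul_zero]
  rw [hu1, sub_eq_zero] at z1; rw [hu2, sub_eq_zero] at z2; rw [hu3, sub_eq_zero] at z3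
  unfold IsRow
  rw [← hes]
  refine ⟨?_, ?_, ?_⟩ <;> conv => { congr; rfl; rfl; rw [hes, bas] }
  · simp only [tab1, forall₂_cons, h1, h4, h5, h6, h11, h15, h19, ← z1]; simp
  · simp only [tab2, forall₂_cons, h2, h5, h7, h8, h12, h16, h20, ← z2]; simp [mul_comm]
  · simp only [tab3, forall₂_cons, h3, h6, h8, h9, h13, h17, h21, ← z3]; simp [mul_comm]

lemma zz_aux (j k : ℕ) (hj : j < 14) (l : TL) (t : List TL) (h : chk3 c20 j k l t = true) :
    ev (y 0) (y 1) l * pair (y 0) (y 1) t (bas y) =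
      (bas y).getD k 0 * pair (y 0) (y 1) (mL.getD j []) (zm12 y) := by
  have hN : Nil c20 (y 0) (y 1) := nil_of_pow c20 hI
  obtain ⟨r1, r2, r3⟩ := stage2 hu hI hy
  have a1 := RV.toV (f := y 0) (g := y 1) c20_ok (tab1.getD k []) (bas y)
  have a2 := RV.toV (f := y 0) (g := y 1) c20_ok (tab2.getD k []) (bas y)
  have a3 := RV.toV (f := y 0) (g := y 1) c20_ok (tab3.getD k []) (bas y)
  have a0 := RV.toV (f := y 0) (g := y 1) c20_ok (un k) (bas y)
  rw [r1.get] at a1; rw [r2.get] at a2; rw [r3.get] at a3; rw [pair_un] at a0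
  set z := (bas y).getD k 0
  have hm : Forall₂ (fun T b => RV c20 (y 0) (y 1) (bas y) T (z * b)) (mz c20 k) (xm10 y) := by
    simp only [mz, xm10, forall₂_cons, Forall₂.nil, and_true]
    refine ⟨?_, ?_, ?_, ?_, ?_, ?_, ?_, ?_, ?_, ?_⟩
    · convert a0 using 1; ring
    · convert a1 using 1; ring
    · convert a2 using 1; ring
    · convert a3 using 1; ring
    · convert RV.opX c20_ok r1 a1 using 1; ring
    · convert RV.opX c20_ok r1 a2 using 1; ring
    · convert RV.opX c20_ok r1 a3 using 1; ring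
    · convert RV.opX c20_ok r2 a2 using 1; ring
    · convert RV.opX c20_ok r2 a3 using 1; ring
    · convert RV.opX c20_ok r3 a3 using 1; ring
  have := RV.isZ c20_ok hN ((RV.comb' z (RV.toV c20_ok (rL.getD j []) (xm10 y)) hm).add
    (RV.smul (Rep.toK c20_ok l) (RV.toV c20_ok t (bas y)))) h
  have h2 := hy j hj
  rw [rhoA_eq y j hj] at h2
  linear_combination this - z * h2

theorem stage3 :
    y 0 * (pair (y 0) (y 1) t44 (bas y) - y 5 * y 5) = 0 ∧
    y 0 * (pair (y 0) (y 1) t45 (bas y) - y 5 * y 6) = 0 ∧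
    y 0 * (pair (y 0) (y 1) t46 (bas y) - y 5 * y 7) = 0 ∧
    y 1 * (pair (y 0) (y 1) t55 (bas y) - y 6 * y 6) = 0 ∧
    y 1 * (pair (y 0) (y 1) t56 (bas y) - y 6 * y 7) = 0 ∧
    y 0 * (y 0 * (pair (y 0) (y 1) t66 (bas y) - y 7 * y 7)) = 0 := by
  have a1 := zz_aux hu hI hy 0 4 (by norm_num) _ _ chk3_44
  have a2 := zz_aux hu hI hy 0 5 (by norm_num) _ _ chk3_45
  have a3 := zz_aux hu hI hy 0 6 (by norm_num) _ _ chk3_46
  have a4 := zz_aux hu hI hy 1 5 (by norm_num) _ _ chk3_55
  have a5 := zz_aux hu hI hy 1 6 (by norm_num) _ _ chk3_56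
  have a6 := zz_aux hu hI hy 2 6 (by norm_num) _ _ chk3_66
  generalize pair (y 0) (y 1) t44 (bas y) = p1 at *
  generalize pair (y 0) (y 1) t45 (bas y) = p2 at *
  generalize pair (y 0) (y 1) t46 (bas y) = p3 at *
  generalize pair (y 0) (y 1) t55 (bas y) = p4 at *
  generalize pair (y 0) (y 1) t56 (bas y) = p5 at *
  generalize pair (y 0) (y 1) t66 (bas y) = p6 at *
  simp [mL, zm12, bas, tp] at a1 a2 a3 a4 a5 a6
  have u27 := fun b => ((hu 27 (by norm_num)).mul_right_eq_zero (b := b)).1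
  have u162 := fun b => ((hu 162 (by norm_num)).mul_right_eq_zero (b := b)).1
  refine ⟨u27 _ ?_, u27 _ ?_, u27 _ ?_, u27 _ ?_, u27 _ ?_, u162 _ ?_⟩ <;> push_cast
  · linear_combination a1
  · linear_combination a2
  · linear_combination a3
  · linear_combination a4
  · linear_combination a5
  · linear_combination a6

end Crest.Agent.R278
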