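import Crest.Agent.R278.Tab2
import Crest.Agent.R278.Anti
import Crest.Agent.R278.Data3

/-! The full table and the values of the trilinear form modulo `(f,g)^18`. -/

set_option autoImplicit false
set_option maxRecDepth 100000
namespace Crest.Agent.R278
open Finset List

variable {Q : Type*} [CommRing Q]

def c18 : Cx := Cx.mk' 24 80 18 21 1000
lemma c18_ok : c18.Ok := Cx.mk'_ok (by norm_num)

lemma chk4a : visZ c18 (vadd (opX c18 tab3 (toV c18 n13)) (toV c18 (negV t47))) = true := by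
  decide +kernel
lemma chk4b : visZ c18 (vadd (opX c18 tab3 (toV c18 n17)) (toV c18 (negV t57))) = true := by
  decide +kernel
lemma chk4c : visZ c18 (vadd (opX c18 tab3 (toV c18 n21)) (toV c18 (negV t67))) = true := by
  decide +kernel
lemma chk4d : visZ c18 (vadd (opX c18 tab3 (toV c18 y3)) (toV c18 (negV t77))) = true := by
  decide +kernel

/-- the full multiplication table holds -/
def Tab (y : Fin 8 → Q) : Prop := IsTab (y 0) (y 1) (bas y) (bas y) (bas y) tabL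

lemma tab_iff {y : Fin 8 → Q} : Tab y ↔ Forall₂ (fun row e => Forall₂
    (fun L e' => pair (y 0) (y 1) L (bas y) = e * e') row [1, y 2, y 3, y 4, y 5, y 6, y 7, y 4 * y 4])
    tabL [1, y 2, y 3, y 4, y 5, y 6, y 7, y 4 * y 4] := Iff.rfl

lemma isRow_iff {y : Fin 8 → Q} {e : Q} {T : List (List TL)} : IsRow y e T ↔ Forall₂
    (fun L e' => pair (y 0) (y 1) L (bas y) = e * e') T
      [1, y 2, y 3, y 4, y 5, y 6, y 7, y 4 * y 4] := Iff.rfl

lemma pair_un_bas (y : Fin 8 → Q) (k : ℕ) : pair (y 0) (y 1) (un k) (bas y) =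
    [1, y 2, y 3, y 4, y 5, y 6, y 7, y 4 * y 4].getD k 0 := pair_un _ _ _ _

theorem tab_of {y : Fin 8 → Q} (hI : Ideal.span {y 0, y 1} ^ 18 = ⊥)
    (r1 : IsRow y (y 2) tab1) (r2 : IsRow y (y 3) tab2) (r3 : IsRow y (y 4) tab3)
    (z44 : pair (y 0) (y 1) t44 (bas y) = y 5 * y 5) (z45 : pair (y 0) (y 1) t45 (bas y) = y 5 * y 6)
    (z46 : pair (y 0) (y 1) t46 (bas y) = y 5 * y 7) (z55 : pair (y 0) (y 1) t55 (bas y) = y 6 * y 6)
    (z56 : pair (y 0) (y 1) t56 (bas y) = y 6 * y 7)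
    (z66 : pair (y 0) (y 1) t66 (bas y) = y 7 * y 7) : Tab y := by
  have hN : Nil c18 (y 0) (y 1) := nil_of_pow c18 hI
  have a := RV.isZ c18_ok hN ((RV.opX c18_ok r3 (RV.toV c18_ok n13 (bas y))).add
    (RV.toV c18_ok (negV t47) (bas y))) chk4a
  have b := RV.isZ c18_ok hN ((RV.opX c18_ok r3 (RV.toV c18_ok n17 (bas y))).add
    (RV.toV c18_ok (negV t57) (bas y))) chk4b
  have c := RV.isZ c18_ok hN ((RV.opX c18_ok r3 (RV.toV c18_ok n21 (bas y))).add
    (RV.toV c18_ok (negV t67) (bas y))) chk4c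
  have d := RV.isZ c18_ok hN ((RV.opX c18_ok r3 (RV.toV c18_ok y3 (bas y))).add
    (RV.toV c18_ok (negV t77) (bas y))) chk4d
  rw [pair_negV, add_neg_eq_zero, eq_comm] at a b c d
  rw [tab_iff]
  rw [isRow_iff] at r1 r2 r3
  simp only [tab1, tab2, tab3, forall₂_cons, Forall₂.nil, and_true] at r1 r2 r3
  obtain ⟨p0, p1, p2, p3, p4, p5, p6, p7⟩ := r1
  obtain ⟨q0, q1, q2, q3, q4, q5, q6, q7⟩ := r2
  obtain ⟨s0, s1, s2, s3, s4, s5, s6, s7⟩ := r3
  simp only [tabL, tab0, tab1, tab2, tab3, tab4, tab5, tab6, tab7, forall₂_cons, Forall₂.nil,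
    and_true, pair_un_bas, List.getD_cons_succ, List.getD_cons_zero, a, b, c, d, z44, z45, z46, z55, z56,
    z66, p1, p2, p3, p4, p5, p6, p7, q2, q3, q4, q5, q6, q7, s4, s5, s6, s7]
  (repeat' constructor) <;> ring

def un2 (k : ℕ) : List TL := List.replicate k [] ++ [[tp 2 0 0]]

def dm3 : List (List TL) :=
  [[], [], un 0, [], [], un 1, [], un2 2, un 3, [], [], [], un 4, [], [], [], un 5, [], [], [],
    un 6, []]
def dm4 : List (List TL) :=
  [[], [], [], un 0, [], [], un 1, [], un 2, un2 3, [], [], [], un 4, [], [], [], un 5, [], [], [],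
    un 6]

lemma dm3_ok (y : Fin 8 → Q) :
    Forall₂ (fun L b => pair (y 0) (y 1) L (bas y) = b) dm3 (dmon y (sgl 3)) := by
  simp [dm3, dmon, pair_un, bas, sgl, un2, tp, two_mul]

lemma dm4_ok (y : Fin 8 → Q) :
    Forall₂ (fun L b => pair (y 0) (y 1) L (bas y) = b) dm4 (dmon y (sgl 4)) := by
  simp [dm4, dmon, pair_un, bas, sgl, un2, tp, two_mul]

lemma Tab.nf {y : Fin 8 → Q} (h : Tab y) :
    Forall₂ (fun L b => pair (y 0) (y 1) L (bas y) = b) nfL (mon22 y) := by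
  rw [tab_iff] at h
  simp only [tabL, tab1, tab2, tab3, forall₂_cons] at h
  obtain ⟨-, ⟨p0, p1, p2, p3, p4, p5, p6, p7⟩, ⟨q0, q1, q2, q3, q4, q5, q6, q7⟩,
    ⟨s0, s1, s2, s3, s4, s5, s6, s7⟩, -⟩ := h
  simp only [nfL, mon22, forall₂_cons, Forall₂.nil, and_true, pair_un_bas, List.getD_cons_succ,
    List.getD_cons_zero, p1, p2, p3, p4, p5, p6, q2, q3, q4, q5, q6, s4, s5, s6]

noncomputable def vW (c : Cx) (j : ℕ) : Vec :=
  vsum (fun k => comb c.m (toV c (phiL j k))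
    [[], comb c.m (toV c (rel k)) (dm3.map (toV c)), [], []]) 14

noncomputable def chkB (c : Cx) (D : ℕ → Vec) (b : List TL) : Bool :=
  visZ c (vadd (vsum (fun j => mulV c (toT c tabL) (D j) (vW c j)) 14) (toV c (negV b)))

lemma chkB0 : chkB c18 (fun j => opX c18 nfL (toV c18 ((rel j).map dF))) b0 = true := by
  decide +kernel
lemma chkB1 : chkB c18 (fun j => opX c18 nfL (toV c18 ((rel j).map dG))) b1 = true := by
  decide +kernel
lemma chkB2 : chkB c18 (fun j => opX c18 dm4 (toV c18 (rel j))) b2 = true := by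
  decide +kernel

lemma BB_eq {y : Fin 8 → Q} (hI : Ideal.span {y 0, y 1} ^ 18 = ⊥) (hT : Tab y) (u : Fin 8)
    (D : ℕ → Vec) (b : List TL) (h : chkB c18 D b = true)
    (hD : ∀ j, RV c18 (y 0) (y 1) (bas y) (D j) (drho y (sgl u) j)) :
    BB y u 2 3 = pair (y 0) (y 1) b (bas y) := by
  have hN : Nil c18 (y 0) (y 1) := nil_of_pow c18 hI
  have hW : ∀ j, RV c18 (y 0) (y 1) (bas y) (vW c18 j) (∑ k ∈ Finset.range 14,
      drho y (sgl 3) k * pair (y 0) (y 1) (phiL j k) [0, 1, 0, 0]) := by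
    intro j
    refine RV.vsum 14 fun k _ => RV.comb' _ (RV.toV c18_ok _ _) ?_
    simp only [forall₂_cons, Forall₂.nil, and_true, mul_zero, mul_one, RV.nil, true_and]
    have := RV.comb (RV.toV c18_ok (rel k) _) (RV.forall₂_toV c18_ok (dm3_ok y))
    convert this using 1
    simp [drho, sgl]
  have := RV.isZ c18_ok hN ((RV.vsum 14 fun j _ => RV.mul c18_ok hT (hD j) (hW j)).add
    (RV.toV c18_ok (negV b) (bas y))) h
  rw [pair_negV, add_neg_eq_zero] at this
  rw [← this, BB]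
  refine Finset.sum_congr rfl fun j _ => ?_
  rw [Finset.mul_sum]
  refine Finset.sum_congr rfl fun k _ => ?_
  rw [aeval_pderiv_rhoZ, aeval_pderiv_rhoZ, aeval_pderiv_phiZ _ _ le_rfl]
  simp only [sgl]
  simp only [Fin.reduceEq, if_true, if_false]
  ring

theorem BB_vals {y : Fin 8 → Q} (hI : Ideal.span {y 0, y 1} ^ 18 = ⊥) (hT : Tab y) :
    BB y 0 2 3 = pair (y 0) (y 1) b0 (bas y) ∧ BB y 1 2 3 = pair (y 0) (y 1) b1 (bas y) ∧
      BB y 4 2 3 = pair (y 0) (y 1) b2 (bas y) := by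
  refine ⟨BB_eq hI hT 0 _ _ chkB0 fun j => ?_, BB_eq hI hT 1 _ _ chkB1 fun j => ?_,
    BB_eq hI hT 4 _ _ chkB2 fun j => ?_⟩
  · have := RV.comb (RV.toV c18_ok ((rel j).map dF) _) (RV.forall₂_toV c18_ok hT.nf)
    rwa [drho, pair_zero _ _ _ (dmon _ _) (by simp [dmon, sgl]), show (sgl 0 0 : Q) = 1 from rfl,
      show (sgl 0 1 : Q) = 0 from rfl, one_mul, zero_mul, add_zero, add_zero]
  · have := RV.comb (RV.toV c18_ok ((rel j).map dG) _) (RV.forall₂_toV c18_ok hT.nf)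
    rwa [drho, pair_zero _ _ _ (dmon _ _) (by simp [dmon, sgl]), show (sgl 1 1 : Q) = 1 from rfl,
      show (sgl 1 0 : Q) = 0 from rfl, one_mul, zero_mul, add_zero, zero_add]
  · have := RV.comb (RV.toV c18_ok (rel j) _) (RV.forall₂_toV c18_ok (dm4_ok y))
    rwa [drho, show (sgl 4 1 : Q) = 0 from rfl,
      show (sgl 4 0 : Q) = 0 from rfl, zero_mul, zero_mul, add_zero, zero_add]

end Crest.Agent.R278
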