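import Crest.Agent.R278.Tab3

/-! The approximate Hilbert–Burch matrix, the Nakayama certificates and the cubes. -/

set_option autoImplicit false
set_option maxRecDepth 100000
namespace Crest.Agent.R278
open Finset List

variable {Q : Type*} [CommRing Q]

def c18b : Cx := Cx.mk' 24 215 18 21 1000
lemma c18b_ok : c18b.Ok := Cx.mk'_ok (by norm_num)
def c18c : Cx := Cx.mk' 24 105 18 21 1000
lemma c18c_ok : c18c.Ok := Cx.mk'_ok (by norm_num)
def cx3 : Cx := Cx.mk' 10 25 3 21 1000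
lemma cx3_ok : cx3.Ok := Cx.mk'_ok (by norm_num)

noncomputable def chkX (c : Cx) (u v u' v' b : List TL) : Bool :=
  visZ c (vadd (mulV c (toT c tabL) (toV c u) (toV c v))
    (vadd (mulV c (toT c tabL) (toV c (negV u')) (toV c v'))
      (vsm c.m (toK c [(-(kap : ℤ), 0, 0)]) (toV c b))))

lemma chkX0 : chkX c18b va1 vb2 va2 vb1 b0 = true := by decide +kernel
lemma chkX1 : chkX c18b va2 vb0 va0 vb2 b1 = true := by decide +kernel
lemma chkX2 : chkX c18b va0 vb1 va1 vb0 b2 = true := by decide +kernel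
lemma kap_ne : (kap : ℤ) ≠ 0 := by decide +kernel

lemma cross_eq {y : Fin 8 → Q} (hI : Ideal.span {y 0, y 1} ^ 18 = ⊥) (hT : Tab y)
    {u v u' v' b : List TL} (h : chkX c18b u v u' v' b = true) :
    pair (y 0) (y 1) u (bas y) * pair (y 0) (y 1) v (bas y) -
      pair (y 0) (y 1) u' (bas y) * pair (y 0) (y 1) v' (bas y) =
      ((kap : ℤ) : Q) * pair (y 0) (y 1) b (bas y) := by
  have hN : Nil c18b (y 0) (y 1) := nil_of_pow c18b hI
  have := RV.isZ c18b_ok hN ((RV.mul c18b_ok hT (RV.toV c18b_ok u (bas y))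
    (RV.toV c18b_ok v (bas y))).add ((RV.mul c18b_ok hT (RV.toV c18b_ok (negV u') (bas y))
    (RV.toV c18b_ok v' (bas y))).add (RV.smul (Rep.toK c18b_ok [(-(kap : ℤ), 0, 0)])
    (RV.toV c18b_ok b (bas y))))) h
  rw [pair_negV] at this
  simp only [ev_cons, ev_nil, pow_zero, mul_one, add_zero, Int.cast_neg] at this
  linear_combination this

noncomputable def chkC (c : Cx) (a : ℕ) : Bool :=
  visZ c (vadd (comb c.m (toV c (cL.getD a [])) (mulB c (toT c tabL) (toV c b0) ++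
    (mulB c (toT c tabL) (toV c b1) ++ mulB c (toT c tabL) (toV c b2))))
    (toV c [[(-(denL.getD a 0 : ℤ), a, 17 - a)]]))

lemma chkC_ok : ∀ a < 18, chkC c18c a = true := by decide +kernel
lemma den_ne : ∀ a < 18, (denL.getD a 0 : ℤ) ≠ 0 := by decide +kernel

lemma pair_mem (f g : Q) (J : Ideal Q) (L : List TL) (es : List Q) (h : ∀ e ∈ es, e ∈ J) :
    pair f g L es ∈ J := by
  induction L generalizing es with
  | nil => simp
  | cons l L ih => cases es with
    | nil => simp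
    | cons e es =>
      exact J.add_mem (J.mul_mem_left _ (h e (by simp))) (ih es fun e he => h e (by simp [he]))

theorem cert_mem {y : Fin 8 → Q} (hu : ∀ n : ℤ, n ≠ 0 → IsUnit (n : Q))
    (hI : Ideal.span {y 0, y 1} ^ 18 = ⊥) (hT : Tab y) (a : ℕ) (ha : a < 18) :
    y 0 ^ a * y 1 ^ (17 - a) ∈ Ideal.span {pair (y 0) (y 1) b0 (bas y),
      pair (y 0) (y 1) b1 (bas y), pair (y 0) (y 1) b2 (bas y)} := by
  have hN : Nil c18c (y 0) (y 1) := nil_of_pow c18c hI
  have h : ∀ b, Forall₂ (fun W e => RV c18c (y 0) (y 1) (bas y) W e)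
      (mulB c18c (toT c18c tabL) (toV c18c b))
      ((bas y).map (pair (y 0) (y 1) b (bas y) * ·)) := fun b => by
    rw [forall₂_map_right_iff]; exact RV.mulB c18c_ok hT (RV.toV c18c_ok b (bas y))
  have := RV.isZ c18c_ok hN ((RV.comb (RV.toV c18c_ok (cL.getD a []) _)
    (rel_append (h b0) (rel_append (h b1) (h b2)))).add
    (RV.toV c18c_ok [[(-(denL.getD a 0 : ℤ), a, 17 - a)]] (bas y))) (chkC_ok a ha)
  refine mem_of_int_mul hu (den_ne a ha) ?_
  have e : pair (y 0) (y 1) [[(-(denL.getD a 0 : ℤ), a, 17 - a)]] (bas y) =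
      - (((denL.getD a 0 : ℤ) : Q) * (y 0 ^ a * y 1 ^ (17 - a))) := by
    simp only [bas, pair_cons, pair_nil, ev_cons, ev_nil, Int.cast_neg]; ring
  rw [e, add_neg_eq_zero] at this
  rw [← this]
  refine pair_mem _ _ _ _ _ fun x hx => ?_
  simp only [List.mem_append, List.mem_map] at hx
  rcases hx with ⟨e, -, rfl⟩ | ⟨e, -, rfl⟩ | ⟨e, -, rfl⟩ <;>
    exact Ideal.mul_mem_right _ _ (Ideal.subset_span (by simp))

noncomputable def chkQ (c : Cx) (k : ℕ) (L : List TL) : Bool :=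
  visZ c (vadd (mulV c (toT c tabL) (toV c (un k)) (mulV c (toT c tabL) (toV c (un k))
    (toV c (un k)))) (toV c (negV L)))

lemma chkQ1 : chkQ cx3 1 [[], [], [], [], [], [], [], [tp 57591 1 0]] = true := by decide +kernel
lemma chkQ2 : chkQ cx3 2 [[], [], [], [], [], [], [], [tp 57591 0 1]] = true := by decide +kernel
lemma chkQ3 : ∀ k < 4, chkQ cx3 (k + 3) [] = true := by decide +kernel

lemma cube_eq {y : Fin 8 → Q} (hI : Ideal.span {y 0, y 1} ^ 3 = ⊥) (hT : Tab y) {k : ℕ}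
    {L : List TL} (h : chkQ cx3 k L = true) :
    (bas y).getD k 0 ^ 3 = pair (y 0) (y 1) L (bas y) := by
  have hN : Nil cx3 (y 0) (y 1) := nil_of_pow cx3 hI
  have h1 := RV.toV (f := y 0) (g := y 1) cx3_ok (un k) (bas y)
  have := RV.isZ cx3_ok hN ((RV.mul cx3_ok hT h1 (RV.mul cx3_ok hT h1 h1)).add
    (RV.toV cx3_ok (negV L) (bas y))) h
  rw [pair_negV, pair_un] at this
  linear_combination this

theorem cubes {y : Fin 8 → Q} (hI : Ideal.span {y 0, y 1} ^ 3 = ⊥) (hT : Tab y) :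
    y 2 ^ 3 = 57591 * y 0 * (y 4 * y 4) ∧ y 3 ^ 3 = 57591 * y 1 * (y 4 * y 4) ∧
      y 4 ^ 3 = 0 ∧ y 5 ^ 3 = 0 ∧ y 6 ^ 3 = 0 ∧ y 7 ^ 3 = 0 := by
  have h1 := cube_eq hI hT chkQ1
  have h2 := cube_eq hI hT chkQ2
  have h3 := cube_eq hI hT (chkQ3 0 (by norm_num))
  have h4 := cube_eq hI hT (chkQ3 1 (by norm_num))
  have h5 := cube_eq hI hT (chkQ3 2 (by norm_num))
  have h6 := cube_eq hI hT (chkQ3 3 (by norm_num))
  simp [bas, tp] at h1 h2 h3 h4 h5 h6
  exact ⟨h1, h2, h3, h4, h5, h6⟩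

lemma cst_v : ∀ L ∈ [va0, va1, va2, vb0, vb1, vb2], cst (L.getD 0 []) = 0 := by decide +kernel

end Crest.Agent.R278
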