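import Crest.Agent.R278.Rep

/-! Vectors of packed polynomials against a list of ring elements. -/

set_option autoImplicit false
namespace Crest.Agent.R278
open Finset List

variable {Q : Type*} [CommRing Q]

def pair (f g : Q) : List TL → List Q → Q
  | [], _ => 0
  | _ :: _, [] => 0
  | l :: L, e :: es => ev f g l * e + pair f g L es

@[simp] lemma pair_nil (f g : Q) (es : List Q) : pair f g [] es = 0 := rfl
@[simp] lemma pair_nil' (f g : Q) (L : List TL) : pair f g L [] = 0 := by cases L <;> rfl
@[simp] lemma pair_cons (f g : Q) (l : TL) (L : List TL) (e : Q) (es : List Q) :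
    pair f g (l :: L) (e :: es) = ev f g l * e + pair f g L es := rfl

lemma pair_append (f g : Q) (L L' : List TL) (es es' : List Q) (h : L.length = es.length) :
    pair f g (L ++ L') (es ++ es') = pair f g L es + pair f g L' es' := by
  induction L generalizing es with
  | nil => cases es with
    | nil => simp
    | cons => simp at h
  | cons l L ih => cases es with
    | nil => simp at h
    | cons e es => simp [ih es (by simpa using h), add_assoc]

lemma map_pair {Q' : Type*} [CommRing Q'] (φ : Q →+* Q') (f g : Q) (L : List TL) (es : List Q) :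
    φ (pair f g L es) = pair (φ f) (φ g) L (es.map φ) := by
  induction L generalizing es with
  | nil => simp
  | cons l L ih => cases es with
    | nil => simp
    | cons e es => simp [ih, map_ev]

lemma mul_pair (f g h : Q) (L : List TL) (es : List Q) :
    h * pair f g L es = pair f g L (es.map (h * ·)) := by
  induction L generalizing es with
  | nil => simp
  | cons l L ih => cases es with
    | nil => simp
    | cons e es => simp [← ih]; ring

lemma pair_sub (f g : Q) (L : List TL) (es es' : List Q) (h : es.length = es'.length) :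
    pair f g L (zipWith (· - ·) es es') = pair f g L es - pair f g L es' := by
  induction L generalizing es es' with
  | nil => simp
  | cons l L ih =>
    match es, es', h with
    | [], [], _ => simp
    | e :: es, e' :: es', h => simp [ih es es' (by simpa using h)]; ring

def negL (l : TL) : TL := l.map fun t => (-t.1, t.2)
def negV (L : List TL) : List TL := L.map negL

lemma ev_negL (f g : Q) (l : TL) : ev f g (negL l) = - ev f g l := by
  induction l with
  | nil => simp [negL]
  | cons t l ih =>
    have : negL (t :: l) = (-t.1, t.2) :: negL l := rfl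
    rw [this, ev_cons, ih, ev_cons]; push_cast; ring

lemma pair_negV (f g : Q) (L : List TL) (es : List Q) : pair f g (negV L) es = - pair f g L es := by
  induction L generalizing es with
  | nil => simp [negV]
  | cons l L ih => cases es with
    | nil => simp
    | cons e es =>
      have : negV (l :: L) = negL l :: negV L := rfl
      rw [this, pair_cons, ih, ev_negL, pair_cons]; ring

def RV (c : Cx) (f g : Q) : List Q → Vec → Q → Prop
  | _, [], x => x = 0
  | [], _ :: _, x => x = 0
  | e :: es, a :: v, x => ∃ s y, Rep c f g s a ∧ RV c f g es v y ∧ x = s * e + y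

variable {c : Cx} {f g : Q}

lemma RV.nil (es : List Q) : RV c f g es [] 0 := by cases es <;> rfl
lemma RV.nil_iff {es : List Q} {x : Q} : RV c f g es [] x ↔ x = 0 := by cases es <;> rfl
lemma RV.nil_iff' {v : Vec} {x : Q} : RV c f g [] v x ↔ x = 0 := by cases v <;> rfl

lemma RV.toV (hc : c.Ok) (L : List TL) (es : List Q) : RV c f g es (toV c L) (pair f g L es) := by
  induction L generalizing es with
  | nil => exact RV.nil _
  | cons l L ih => cases es with
    | nil => simp [RV.nil_iff']
    | cons e es => exact ⟨_, _, Rep.toK hc l, ih es, rfl⟩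

lemma RV.add {es : List Q} {u v : Vec} {x y : Q} (hu : RV c f g es u x) (hv : RV c f g es v y) :
    RV c f g es (vadd u v) (x + y) := by
  induction es generalizing u v x y with
  | nil => rw [RV.nil_iff'] at *; simp [hu, hv]
  | cons e es ih =>
    match u, v, hu, hv with
    | [], v, hu, hv => rw [RV.nil_iff.1 hu, zero_add]; exact hv
    | a :: u, [], hu, hv => rw [RV.nil_iff.1 hv, add_zero]; exact hu
    | a :: u, b :: v, ⟨s, x', h1, h2, h3⟩, ⟨t, y', h4, h5, h6⟩ =>
      exact ⟨s + t, x' + y', h1.add h4, ih h2 h5, by rw [h3, h6]; ring⟩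

lemma RV.smul {es : List Q} {a : KV} {v : Vec} {s x : Q} (ha : Rep c f g s a)
    (hv : RV c f g es v x) : RV c f g es (vsm c.m a v) (s * x) := by
  induction es generalizing v x with
  | nil => rw [RV.nil_iff'] at *; simp [hv]
  | cons e es ih =>
    match v, hv with
    | [], hv => rw [RV.nil_iff.1 hv, mul_zero]; exact RV.nil _
    | b :: v, ⟨t, y', h4, h5, h6⟩ =>
      exact ⟨s * t, s * y', ha.mul h4, ih h5, by rw [h6]; ring⟩

lemma RV.comb' {es bs : List Q} {w : Vec} {Ts : List Vec} {x : Q} (h : Q) (hw : RV c f g bs w x)
    (hT : Forall₂ (fun T b => RV c f g es T (h * b)) Ts bs) :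
    RV c f g es (comb c.m w Ts) (h * x) := by
  induction hT generalizing w x with
  | nil => rw [RV.nil_iff'.1 hw, mul_zero]; cases w <;> exact RV.nil _
  | @cons T b Ts bs h1 _ ih =>
    match w, hw with
    | [], hw => rw [RV.nil_iff.1 hw, mul_zero]; exact RV.nil _
    | ⟨v, n, w', d⟩ :: w, ⟨s, y, h4, h5, h6⟩ =>
      simp only [comb]
      cases hn : Nat.beq n 0
      · have := (RV.smul h4 h1).add (ih h5)
        rw [h6, show h * (s * b + y) = s * (h * b) + h * y by ring]
        exact this
      · rw [h6, h4.eq_zero (Nat.eq_of_beq_eq_true hn), zero_mul, zero_add]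
        exact ih h5

lemma RV.comb {es bs : List Q} {w : Vec} {Ts : List Vec} {x : Q} (hw : RV c f g bs w x)
    (hT : Forall₂ (fun T b => RV c f g es T b) Ts bs) : RV c f g es (comb c.m w Ts) x := by
  have := RV.comb' (es := es) (Ts := Ts) 1 hw (by simpa using hT)
  rwa [one_mul] at this

lemma RV.isZ (hc : c.Ok) (hN : Nil c f g) {es : List Q} {v : Vec} {x : Q} (hv : RV c f g es v x)
    (hz : visZ c v = true) : x = 0 := by
  induction es generalizing v x with
  | nil => exact RV.nil_iff'.1 hv
  | cons e es ih =>
    match v, hv with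
    | [], hv => exact RV.nil_iff.1 hv
    | b :: v, ⟨t, y', h4, h5, h6⟩ =>
      simp only [visZ, Bool.and_eq_true] at hz
      rw [h6, h4.isZ hc hN hz.1, ih h5 hz.2]; simp

lemma RV.vsum {es : List Q} {F : ℕ → Vec} {x : ℕ → Q} (n : ℕ)
    (h : ∀ j < n, RV c f g es (F j) (x j)) :
    RV c f g es (vsum F n) (∑ j ∈ Finset.range n, x j) := by
  induction n with
  | zero => exact RV.nil _
  | succ n ih =>
    rw [Finset.sum_range_succ, add_comm _ (x n)]
    exact (h n (by omega)).add (ih fun j hj => h j (by omega))

lemma RV.forall₂_toV (hc : c.Ok) {es bs : List Q} {Ls : List (List TL)}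
    (h : Forall₂ (fun L b => pair f g L es = b) Ls bs) :
    Forall₂ (fun T b => RV c f g es T b) (Ls.map (R278.toV c)) bs := by
  rw [forall₂_map_left_iff]
  exact h.imp fun L b e => e ▸ RV.toV hc L es

/-- a table expressing the products of `as` and `bs` through `es` -/
def IsTab (f g : Q) (es as bs : List Q) (T : List (List (List TL))) : Prop :=
  Forall₂ (fun row e => Forall₂ (fun L e' => pair f g L es = e * e') row bs) T as

def toT (c : Cx) (T : List (List (List TL))) : List (List Vec) := T.map fun r => r.map (toV c)

/-- the products of `v` with all elements of `as` -/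
def mulB (c : Cx) (T : List (List Vec)) (v : Vec) : List Vec := T.map (comb c.m v)

lemma RV.mulRow (hc : c.Ok) {es bs : List Q} {row : List (List TL)} {e : Q}
    (h : Forall₂ (fun L e' => pair f g L es = e * e') row bs) {v : Vec} {y : Q}
    (hv : RV c f g bs v y) : RV c f g es (R278.comb c.m v (row.map (R278.toV c))) (e * y) := by
  refine RV.comb' e hv ?_
  rw [forall₂_map_left_iff]
  exact h.imp fun L b e => e ▸ RV.toV hc L es

lemma RV.mulB (hc : c.Ok) {es as bs : List Q} {T : List (List (List TL))}
    (hT : IsTab f g es as bs T) {v : Vec} {y : Q} (hv : RV c f g bs v y) :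
    Forall₂ (fun W e => RV c f g es W (y * e)) (mulB c (toT c T) v) as := by
  unfold R278.mulB toT
  rw [List.map_map, forall₂_map_left_iff]
  refine hT.imp fun row e h => ?_
  rw [mul_comm]
  exact RV.mulRow hc h hv

def mulV (c : Cx) (T : List (List Vec)) (u v : Vec) : Vec := comb c.m u (mulB c T v)

lemma RV.mul (hc : c.Ok) {es as bs : List Q} {T : List (List (List TL))}
    (hT : IsTab f g es as bs T) {u v : Vec} {x y : Q} (hu : RV c f g as u x)
    (hv : RV c f g bs v y) : RV c f g es (mulV c (toT c T) u v) (x * y) := by
  rw [mul_comm]; exact RV.comb' y hu (RV.mulB hc hT hv)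

lemma pair_un (f g : Q) (k : ℕ) (es : List Q) : pair f g (un k) es = es.getD k 0 := by
  induction k generalizing es with
  | zero => cases es <;> simp [un, tp]
  | succ k ih => cases es with
    | nil => simp
    | cons e es =>
      have : un (k + 1) = [] :: un k := rfl
      rw [this, pair_cons, ih]; simp

attribute [irreducible] RV

/-! derivatives -/
def dF : TL → TL
  | [] => []
  | (_, 0, _) :: l => dF l
  | (z, a + 1, b) :: l => (z * (a + 1 : ℕ), a, b) :: dF l

def dG : TL → TL
  | [] => []
  | (_, _, 0) :: l => dG l
  | (z, a, b + 1) :: l => (z * (b + 1 : ℕ), a, b) :: dG l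

section der
variable {R A : Type*} [CommRing R] [CommRing A] [Algebra R A] (D : Derivation R A A)

lemma der_ev (f g : A) (l : TL) : D (ev f g l) = D f * ev f g (dF l) + D g * ev f g (dG l) := by
  induction l with
  | nil => simp [dF, dG]
  | cons t l ih =>
    obtain ⟨z, a, b⟩ := t
    rw [ev_cons, map_add, ih]
    cases a <;> cases b <;>
      simp [dF, dG, Derivation.leibniz_pow, Derivation.map_intCast] <;> ring

lemma der_pair (f g : A) (L : List TL) (es : List A) : D (pair f g L es) =
    D f * pair f g (L.map dF) es + D g * pair f g (L.map dG) es + pair f g L (es.map D) := by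
  induction L generalizing es with
  | nil => simp
  | cons l L ih => cases es with
    | nil => simp
    | cons e es => simp [ih, der_ev]; ring

end der

/-! constant terms -/
def cst : TL → ℤ
  | [] => 0
  | (z, 0, 0) :: l => z + cst l
  | _ :: l => cst l

def ipair : List ℤ → List Q → Q
  | [], _ => 0
  | _ :: _, [] => 0
  | z :: L, e :: es => (z : Q) * e + ipair L es

@[simp] lemma ipair_nil (es : List Q) : ipair [] es = 0 := rfl
@[simp] lemma ipair_nil' (L : List ℤ) : ipair L ([] : List Q) = 0 := by cases L <;> rfl
@[simp] lemma ipair_cons (z : ℤ) (L : List ℤ) (e : Q) (es : List Q) :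
    ipair (z :: L) (e :: es) = (z : Q) * e + ipair L es := rfl

def iadd : List ℤ → List ℤ → List ℤ
  | [], v => v
  | a :: u, [] => a :: u
  | a :: u, b :: v => (a + b) :: iadd u v

def icomb : List ℤ → List (List ℤ) → List ℤ
  | [], _ => []
  | _ :: _, [] => []
  | z :: C, L :: Ls => iadd (L.map (z * ·)) (icomb C Ls)

lemma ipair_iadd (u v : List ℤ) (es : List Q) : ipair (iadd u v) es = ipair u es + ipair v es := by
  induction es generalizing u v with
  | nil => simp
  | cons e es ih =>
    match u, v with
    | [], v => simp [iadd]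
    | a :: u, [] => simp [iadd]
    | a :: u, b :: v => simp [iadd, ih]; ring

lemma ipair_map_mul (z : ℤ) (u : List ℤ) (es : List Q) :
    ipair (u.map (z * ·)) es = (z : Q) * ipair u es := by
  induction u generalizing es with
  | nil => simp
  | cons a u ih => cases es with
    | nil => simp
    | cons e es => simp [ih]; ring

lemma ev_sub_cst (I : Ideal Q) {f g : Q} (hf : f ∈ I) (hg : g ∈ I) (l : TL) :
    ev f g l - cst l ∈ I := by
  induction l with
  | nil => simp [cst]
  | cons t l ih =>
    obtain ⟨z, a, b⟩ := t
    match a, b with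
    | 0, 0 => simpa [cst] using ih
    | a + 1, b =>
      have : cst ((z, a + 1, b) :: l) = cst l := rfl
      rw [this, ev_cons, add_sub_assoc]
      exact I.add_mem (I.mul_mem_right _ (I.mul_mem_left _ (I.pow_mem_of_mem hf _ (by simp)))) ih
    | 0, b + 1 =>
      have : cst ((z, 0, b + 1) :: l) = cst l := rfl
      rw [this, ev_cons, add_sub_assoc]
      exact I.add_mem (I.mul_mem_left _ (I.pow_mem_of_mem hg _ (by simp))) ih

section cst
variable {L0 : Type*} [CommRing L0] [Algebra L0 Q] (I : Ideal L0) {f0 g0 : L0}

lemma pair_sub_ipair (hf : f0 ∈ I) (hg : g0 ∈ I) (W : Submodule L0 Q) (L : List TL) (d : List Q)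
    (hd : ∀ x ∈ d, x ∈ W) :
    pair (algebraMap L0 Q f0) (algebraMap L0 Q g0) L d - ipair (L.map cst) d ∈ I • W := by
  induction L generalizing d with
  | nil => simp
  | cons l L ih => cases d with
    | nil => simp
    | cons e d =>
      have h1 := Submodule.smul_mem_smul (ev_sub_cst I hf hg l) (hd e (by simp))
      have h2 := ih d fun x hx => hd x (by simp [hx])
      have := Submodule.add_mem _ h1 h2
      rw [Algebra.smul_def (ev f0 g0 l - _), map_sub, map_ev, map_intCast] at this
      convert this using 1
      simp; ring

lemma ipair_icomb_mem (hf : f0 ∈ I) (hg : g0 ∈ I) (W : Submodule L0 Q) (d : List Q)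
    (hd : ∀ x ∈ d, x ∈ W) (C : List ℤ) (Ls : List (List TL))
    (h : ∀ L ∈ Ls, pair (algebraMap L0 Q f0) (algebraMap L0 Q g0) L d = 0) :
    ipair (icomb C (Ls.map (·.map cst))) d ∈ I • W := by
  induction C generalizing Ls with
  | nil => simp [icomb]
  | cons z C ih => cases Ls with
    | nil => simp [icomb]
    | cons L Ls =>
      simp only [List.map_cons, icomb, ipair_iadd, ipair_map_mul]
      refine Submodule.add_mem _ ?_ (ih Ls fun L' hL => h L' (by simp [hL]))
      have := pair_sub_ipair I hf hg W L d hd
      rw [h L (by simp), zero_sub, neg_mem_iff] at this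
      rw [← zsmul_eq_mul]
      exact zsmul_mem this z

end cst

end Crest.Agent.R278
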